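import Vale.Agent.P287.H631.Minors

/-!
Linear independence of the rows of a `3 × 4` matrix and its maximal minors.
-/

namespace Vale.Agent.P287.H631

open Vale.Agent.P287

lemma exists_mnr_ne {k : Type*} [Field k] (N : Matrix (Fin 3) (Fin 4) k)
    (h : LinearIndependent k (fun j => N j)) : ∃ c, mnr N c ≠ 0 := by
  by_contra hcon
  push Not at hcon
  have h1 : Submodule.span k (Set.range fun j => N j) ≠ ⊤ := by
    intro htop
    have h2 := finrank_span_eq_card h
    rw [htop, finrank_top] at h2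
    simp at h2
  obtain ⟨u, hu⟩ : ∃ u, u ∉ Submodule.span k (Set.range fun j => N j) := by
    by_contra hc
    push Not at hc
    exact h1 (eq_top_iff.mpr fun x _ => hc x)
  have h4 : LinearIndependent k (Fin.cons u (fun j => N j) : Fin 4 → Fin 4 → k) :=
    linearIndependent_finCons.mpr ⟨h, hu⟩
  have hdet : (Matrix.of (Fin.cons u (fun j => N j) : Fin 4 → Fin 4 → k)).det ≠ 0 := by
    have h5 := (Matrix.linearIndependent_rows_iff_isUnit
      (A := Matrix.of (Fin.cons u (fun j => N j) : Fin 4 → Fin 4 → k))).mp h4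
    rw [Matrix.isUnit_iff_isUnit_det] at h5
    exact h5.ne_zero
  apply hdet
  have c0 := hcon 0
  have c1 := hcon 1
  have c2 := hcon 2
  have c3 := hcon 3
  simp only [mnr, Matrix.cons_val_zero, Matrix.cons_val_one, Matrix.cons_val] at c0 c1 c2 c3
  have e0 : ∀ i, (Matrix.of (Fin.cons u (fun j => N j) : Fin 4 → Fin 4 → k)) 0 i = u i :=
    fun i => rfl
  have e1 : ∀ i, (Matrix.of (Fin.cons u (fun j => N j) : Fin 4 → Fin 4 → k)) 1 i = N 0 i :=
    fun i => rfl
  have e2 : ∀ i, (Matrix.of (Fin.cons u (fun j => N j) : Fin 4 → Fin 4 → k)) 2 i = N 1 i :=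
    fun i => rfl
  have e3 : ∀ i, (Matrix.of (Fin.cons u (fun j => N j) : Fin 4 → Fin 4 → k)) 3 i = N 2 i :=
    fun i => rfl
  rw [Matrix.det_succ_row_zero]
  simp only [Fin.sum_univ_four, Matrix.det_fin_three, Matrix.submatrix_apply, Fin.succAbove]
  simp [e0, e1, e2, e3]
  linear_combination u 0 * c0 + u 1 * c1 + u 2 * c2 + u 3 * c3

lemma exists_relation {k : Type*} [Field k] (N : Matrix (Fin 3) (Fin 4) k)
    (h : ∀ c, mnr N c = 0) : ∃ d : Fin 3 → k, d ≠ 0 ∧ ∀ c, ∑ j, d j * N j c = 0 := by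
  by_contra hcon
  push Not at hcon
  obtain ⟨c, hc⟩ := exists_mnr_ne N (by
    rw [Fintype.linearIndependent_iff]
    intro g hg
    by_contra hne
    push Not at hne
    obtain ⟨i, hi⟩ := hne
    obtain ⟨c, hc⟩ := hcon g (fun h0 => hi (congrFun h0 i))
    apply hc
    have h1 := congrFun hg c
    simpa using h1)
  exact hc (h c)

end Vale.Agent.P287.H631
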