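import Vale.Agent.P287.H631.Scale

/-!
Common zeros of two coprime homogeneous polynomials in three variables are constant.
-/

open MvPolynomial

namespace Vale.Agent.P287.H631

open Vale.Agent.P287

section

variable {E : Type} [Field E] [Algebra ℂ E]

/-- The homomorphism `X i ↦ u i * λ`. -/
noncomputable def cone (u : Fin 3 → E) : R3 →ₐ[ℂ] Polynomial E :=
  aeval fun i => Polynomial.C (u i) * Polynomial.X

lemma cone_homog (u : Fin 3 → E) {p : R3} {k : ℕ} (hp : p.IsHomogeneous k) :
    cone u p = Polynomial.X ^ k * Polynomial.C (aeval u p) := by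
  have h1 : (fun i => Polynomial.C (u i) * Polynomial.X : Fin 3 → Polynomial E) =
      (Polynomial.X : Polynomial E) • (fun i => Polynomial.C (u i)) := by
    funext i
    exact mul_comm _ _
  rw [cone, h1, aeval_smul_of_homog hp]
  congr 1
  have h2 := MvPolynomial.comp_aeval_apply (R := ℂ) u (Polynomial.CAlgHom : E →ₐ[ℂ] Polynomial E) p
  exact h2.symm

lemma eval_cone (u : Fin 3 → E) (p : R3) : (cone u p).eval 1 = aeval u p := by
  let ev : Polynomial E →ₐ[ℂ] E := (Polynomial.aeval (1 : E)).restrictScalars ℂ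
  have h1 : ev.comp (cone u) = aeval u := by
    apply MvPolynomial.algHom_ext
    intro k
    simp [ev, cone]
  rw [← h1]
  exact Polynomial.coe_aeval_eq_eval (1 : E) ▸ rfl

/-- A common zero of two coprime homogeneous polynomials is constant. -/
theorem exists_const {g p : R3} {k l : ℕ} (hgp : Prime g) (hg : g.IsHomogeneous k)
    (hp : p.IsHomogeneous l) (hnd : ¬ g ∣ p) (t : Fin 3 → E) (h1 : aeval t g = 0)
    (h2 : aeval t p = 0) : ∃ (c : Fin 3 → ℂ) (r : E), t = r • fun i => algebraMap ℂ E (c i) := by
  classical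
  by_cases ht : t = 0
  · exact ⟨0, 0, by rw [ht, zero_smul]⟩
  obtain ⟨j, hj⟩ : ∃ j, t j ≠ 0 := by
    by_contra h
    push Not at h
    exact ht (funext h)
  set u : Fin 3 → E := (t j)⁻¹ • t with hu
  have huj : u j = 1 := by
    simp only [hu, Pi.smul_apply, smul_eq_mul]
    exact inv_mul_cancel₀ hj
  have hug : aeval u g = 0 := by rw [hu, aeval_smul_of_homog hg, h1, mul_zero]
  have hup : aeval u p = 0 := by rw [hu, aeval_smul_of_homog hp, h2, mul_zero]
  -- the chain of prime ideals
  let I1 : Ideal R3 := Ideal.span {g}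
  let I2 : Ideal R3 := RingHom.ker (cone u)
  let I3 : Ideal R3 := RingHom.ker (aeval u : R3 →ₐ[ℂ] E)
  have i1 : I1.IsPrime := (Ideal.span_singleton_prime hgp.ne_zero).mpr hgp
  have i2 : I2.IsPrime := RingHom.ker_isPrime _
  have i3 : I3.IsPrime := RingHom.ker_isPrime _
  have l0 : (⊥ : Ideal R3) < I1 := by
    rw [bot_lt_iff_ne_bot]
    intro h
    exact hgp.ne_zero (Ideal.span_singleton_eq_bot.mp h)
  have l1 : I1 < I2 := by
    refine lt_of_le_of_ne ?_ ?_
    · rw [Ideal.span_singleton_le_iff_mem]
      change cone u g = 0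
      rw [cone_homog u hg, hug, map_zero, mul_zero]
    · intro h
      apply hnd
      have : p ∈ I2 := by
        change cone u p = 0
        rw [cone_homog u hp, hup, map_zero, mul_zero]
      rw [← h] at this
      exact Ideal.mem_span_singleton.mp this
  have l2 : I2 < I3 := by
    refine lt_of_le_of_ne ?_ ?_
    · intro q hq
      have hq0 : cone u q = 0 := hq
      change aeval u q = 0
      rw [← eval_cone, hq0, Polynomial.eval_zero]
    · intro h
      have h3 : (X j - 1 : R3) ∈ I3 := by
        change aeval u (X j - 1 : R3) = 0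
        rw [map_sub, aeval_X, huj, map_one, sub_self]
      rw [← h] at h3
      have h4 : cone u (X j - 1 : R3) = 0 := h3
      rw [map_sub, map_one, cone, aeval_X, huj] at h4
      have h5 := congrArg (Polynomial.eval 0) h4
      simp at h5
  have h3 : (3 : ℕ∞) ≤ I3.height := by
    have a1 := Ideal.height_add_one_le_of_lt_of_isPrime l0
    have a2 := Ideal.height_add_one_le_of_lt_of_isPrime l1
    have a3 := Ideal.height_add_one_le_of_lt_of_isPrime l2
    calc (3 : ℕ∞) = 0 + 1 + 1 + 1 := by norm_num
      _ ≤ (⊥ : Ideal R3).height + 1 + 1 + 1 := by gcongr; exact zero_le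
      _ ≤ I1.height + 1 + 1 := by gcongr
      _ ≤ I2.height + 1 := by gcongr
      _ ≤ I3.height := a3
  have hdim : ringKrullDim R3 = 3 := by
    rw [MvPolynomial.ringKrullDim_of_isNoetherianRing]
    simp
  have hmax : I3.IsMaximal := by
    have hfin : FiniteRingKrullDim R3 := by
      rw [finiteRingKrullDim_iff_ne_bot_and_top, hdim]
      constructor
      · exact WithBot.coe_ne_bot (a := (3 : ℕ∞))
      · intro h
        have : (3 : ℕ∞) = ⊤ := WithBot.coe_injective h
        exact absurd this (by decide)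
    apply Ideal.isMaximal_of_height_eq_ringKrullDim
    apply le_antisymm
    · exact Ideal.height_le_ringKrullDim_of_isPrime
    · rw [hdim]
      exact WithBot.coe_le_coe.mpr h3
  obtain ⟨c, hc⟩ := isMaximal_iff_eq_vanishingIdeal_singleton.mp hmax
  refine ⟨c, t j, ?_⟩
  funext i
  have h4 : (X i - C (c i) : R3) ∈ I3 := by
    rw [hc, mem_vanishingIdeal_singleton_iff]
    simp
  have h5 : aeval u (X i - C (c i) : R3) = 0 := h4
  rw [map_sub, aeval_X, aeval_C, sub_eq_zero] at h5
  simp only [Pi.smul_apply, smul_eq_mul]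
  rw [← h5, hu]
  simp only [Pi.smul_apply, smul_eq_mul]
  rw [mul_inv_cancel_left₀ hj]

end

end Vale.Agent.P287.H631
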