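import Vale.Agent.P287.H631.Family
import Vale.Agent.P287.Param

/-!
Homogeneity of the matrix `A` in the main identity.
-/

open MvPolynomial

namespace Vale.Agent.P287.H631

open Vale.Agent.P287

section sym

variable {R : Type*} [CommRing R] [IsDomain R] {n : ℕ}

lemma pf_single (A : Matrix (Fin n) (Fin n) R) (i j : Fin n) :
    pf A (Pi.single i (1 : R)) (Pi.single j 1) = A i j + A j i := by
  classical
  simp only [pf, Algebra.algebraMap_self, RingHom.id_apply, mul_add, Finset.sum_add_distrib]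
  congr 1
  · rw [Finset.sum_eq_single i, Finset.sum_eq_single j]
    · simp
    · intro b _ hb; simp [Pi.single_eq_of_ne hb]
    · simp
    · intro b _ hb; simp [Pi.single_eq_of_ne hb]
    · simp
  · rw [Finset.sum_eq_single j, Finset.sum_eq_single i]
    · simp
    · intro b _ hb; simp [Pi.single_eq_of_ne hb]
    · simp
    · intro b _ hb; simp [Pi.single_eq_of_ne hb]
    · simp

/-- Symmetric matrices with the same values are equal. -/
lemma sym_ext (h2 : (2 : R) ≠ 0) (A A' : Matrix (Fin n) (Fin n) R) (hA : ∀ i j, A i j = A j i)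
    (hA' : ∀ i j, A' i j = A' j i) (h : ∀ x : Fin n → R, qf A x = qf A' x) (i j : Fin n) :
    A i j = A' i j := by
  have h1 : pf A (Pi.single i (1 : R)) (Pi.single j 1) = pf A' (Pi.single i 1) (Pi.single j 1) := by
    rw [pf_eq_sub, pf_eq_sub, h, h, h]
  rw [pf_single, pf_single, ← hA i j, ← hA' i j, ← two_mul, ← two_mul] at h1
  exact mul_left_cancel₀ h2 h1

end sym

/-- Scaling of the coordinates of the plane. -/
noncomputable def sg (c : ℂ) : R3 →ₐ[ℂ] R3 := aeval ((C c : R3) • (X : Fin 3 → R3))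

lemma sg_homog {p : R3} {k : ℕ} (hp : p.IsHomogeneous k) (c : ℂ) : sg c p = C c ^ k * p := by
  rw [sg, aeval_smul_of_homog hp, aeval_X_left_apply]

lemma aeval_sg (p : R3) (c : ℂ) {A : Type*} [CommRing A] [Algebra ℂ A] (t : Fin 3 → A) :
    aeval t (sg c p) = aeval (algebraMap ℂ A c • t) p := by
  rw [sg, MvPolynomial.comp_aeval_apply]
  congr 2
  funext i
  simp [MvPolynomial.algebraMap_eq, ← MvPolynomial.algebraMap_eq]

/-- The weighted scaling of `v`. -/
def dl {A : Type*} [CommRing A] (c : A) (v : Fin 4 → A) : Fin 4 → A :=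
  ![v 0, c * v 1, c * v 2, c * v 3]

lemma dl_add {A : Type*} [CommRing A] (c : A) (v w : Fin 4 → A) :
    dl c (v + w) = dl c v + dl c w := by
  funext i
  fin_cases i <;> simp [dl, mul_add]

lemma wvec_dl {A : Type*} [CommRing A] (t : Fin 3 → A) (c : A) (v : Fin 4 → A) :
    wvec (c • t) (dl c v) = c • wvec t v := by
  funext i
  fin_cases i <;> simp [wvec, dl] <;> ring

lemma net_smul_t {n : ℕ} (Q : Fin 3 → Matrix (Fin n) (Fin n) ℂ) {A : Type*} [CommRing A]
    [Algebra ℂ A] (c : A) (t : Fin 3 → A) (w : Fin n → A) : net Q (c • t) w = c * net Q t w := by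
  simp only [net, Finset.mul_sum, Pi.smul_apply, smul_eq_mul]
  refine Finset.sum_congr rfl fun i _ => ?_
  ring

lemma QR_map_X (B : Fin 3 → Matrix (Fin 6) (Fin 6) ℂ) :
    (QR B).map (aeval (X : Fin 3 → R3) : R3 →ₐ[ℂ] R3) = QR B := by
  ext i j
  simp

lemma qf_scale (B : Fin 3 → Matrix (Fin 6) (Fin 6) ℂ) (c : ℂ) (w : Fin 4 → R3) :
    qf ((QR B).map (sg c)) (dl (C c) w) = C c ^ 3 * qf (QR B) w := by
  have h1 := qf_QR B ((C c : R3) • (X : Fin 3 → R3)) (dl (C c) w)
  have h2 := qf_QR B (X : Fin 3 → R3) w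
  rw [QR_map_X] at h2
  rw [wvec_dl, net_smul, net_smul_t, ← h2] at h1
  change qf ((QR B).map (sg c)) (dl (C c) w) = _ at h1
  rw [h1]
  ring

lemma pf_scale (B : Fin 3 → Matrix (Fin 6) (Fin 6) ℂ) (c : ℂ) (u w : Fin 4 → R3) :
    pf ((QR B).map (sg c)) (dl (C c) u) (dl (C c) w) = C c ^ 3 * pf (QR B) u w := by
  rw [pf_eq_sub, ← dl_add, qf_scale, qf_scale, qf_scale, pf_eq_sub]
  ring

/-- The matrix of the three linear functionals. -/
def Nm (a : Fin 3 → Fin 3 → R3) (b : Fin 3 → R3) : Matrix (Fin 3) (Fin 4) R3 :=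
  fun j => Fin.cons (b j) (a j)

section

variable {a : Fin 3 → Fin 3 → R3} {b : Fin 3 → R3} {m : ℕ}

lemma act_scale (ha : ∀ j i, (a j i).IsHomogeneous m) (hb : ∀ j, (b j).IsHomogeneous (m + 1))
    (c : ℂ) (w : Fin 4 → R3) :
    act ((Nm a b).map (sg c)) (dl (C c) w) = (C c ^ (m + 1) : R3) • act (Nm a b) w := by
  funext j
  simp only [act, Nm, Matrix.map_apply, Fin.sum_univ_four, Pi.smul_apply, smul_eq_mul,
    Algebra.algebraMap_self, RingHom.id_apply]
  have e0 : (Fin.cons (b j) (a j) : Fin 4 → R3) 0 = b j := rfl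
  have e1 : (Fin.cons (b j) (a j) : Fin 4 → R3) 1 = a j 0 := rfl
  have e2 : (Fin.cons (b j) (a j) : Fin 4 → R3) 2 = a j 1 := rfl
  have e3 : (Fin.cons (b j) (a j) : Fin 4 → R3) 3 = a j 2 := rfl
  rw [e0, e1, e2, e3, sg_homog (hb j), sg_homog (ha j 0), sg_homog (ha j 1), sg_homog (ha j 2)]
  simp [dl]
  ring

lemma mnr_scale0 (ha : ∀ j i, (a j i).IsHomogeneous m) (c : ℂ) :
    sg c (mnr (Nm a b) 0) = C c ^ (3 * m) * mnr (Nm a b) 0 := by
  have e1 : ∀ j, Nm a b j 1 = a j 0 := fun j => rfl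
  have e2 : ∀ j, Nm a b j 2 = a j 1 := fun j => rfl
  have e3 : ∀ j, Nm a b j 3 = a j 2 := fun j => rfl
  simp only [mnr, Matrix.cons_val_zero, map_sub, map_add, map_mul, e1, e2, e3, sg_homog (ha _ _)]
  ring

lemma mnr_scale (ha : ∀ j i, (a j i).IsHomogeneous m) (hb : ∀ j, (b j).IsHomogeneous (m + 1))
    (c : ℂ) (i : Fin 3) :
    sg c (mnr (Nm a b) i.succ) = C c ^ (3 * m + 1) * mnr (Nm a b) i.succ := by
  have e0 : ∀ j, Nm a b j 0 = b j := fun j => rfl
  have e1 : ∀ j, Nm a b j 1 = a j 0 := fun j => rfl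
  have e2 : ∀ j, Nm a b j 2 = a j 1 := fun j => rfl
  have e3 : ∀ j, Nm a b j 3 = a j 2 := fun j => rfl
  fin_cases i
  · change sg c (mnr (Nm a b) 1) = C c ^ (3 * m + 1) * mnr (Nm a b) 1
    simp only [mnr, Matrix.cons_val_one, Matrix.cons_val_zero, map_neg, map_sub, map_add, map_mul,
      e0, e1, e2, e3, sg_homog (ha _ _), sg_homog (hb _)]
    ring
  · change sg c (mnr (Nm a b) 2) = C c ^ (3 * m + 1) * mnr (Nm a b) 2
    simp only [mnr, Matrix.cons_val, map_neg, map_sub, map_add, map_mul,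
      e0, e1, e2, e3, sg_homog (ha _ _), sg_homog (hb _)]
    ring
  · change sg c (mnr (Nm a b) 3) = C c ^ (3 * m + 1) * mnr (Nm a b) 3
    simp only [mnr, Matrix.cons_val, map_neg, map_sub, map_add, map_mul,
      e0, e1, e2, e3, sg_homog (ha _ _), sg_homog (hb _)]
    ring

lemma C_ne {c : ℂ} (hc : c ≠ 0) : (C c : R3) ≠ 0 := by
  simpa using hc

/-- The vector `e` scales. -/
lemma e_scale (ha : ∀ j i, (a j i).IsHomogeneous m) (hb : ∀ j, (b j).IsHomogeneous (m + 1))
    {g : R3} (hg : g.IsHomogeneous (2 * m + 1)) (hg0 : g ≠ 0) {e : Fin 4 → R3}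
    (he : ∀ k, mnr (Nm a b) k = g * e k) {c : ℂ} (hc : c ≠ 0) :
    (C c : R3) • (fun i => sg c (e i)) = (C c ^ m : R3) • dl (C c) e := by
  have hC := C_ne hc
  have h0 : C c * sg c (e 0) = C c ^ m * e 0 := by
    have h1 := mnr_scale0 (b := b) ha c
    rw [he, map_mul, sg_homog hg] at h1
    have h2 : (C c ^ (2 * m) * g) * (C c * sg c (e 0)) = (C c ^ (2 * m) * g) * (C c ^ m * e 0) := by
      have e1 : (C c ^ (2 * m) * g) * (C c * sg c (e 0)) = C c ^ (2 * m + 1) * g * sg c (e 0) := by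
        ring
      have e2 : (C c ^ (2 * m) * g) * (C c ^ m * e 0) = C c ^ (3 * m) * (g * e 0) := by ring
      rw [e1, e2, h1]
    exact mul_left_cancel₀ (mul_ne_zero (pow_ne_zero _ hC) hg0) h2
  have hs : ∀ i : Fin 3, C c * sg c (e i.succ) = C c ^ m * (C c * e i.succ) := by
    intro i
    have h1 := mnr_scale ha hb c i
    rw [he, map_mul, sg_homog hg] at h1
    have h2 : (C c ^ (2 * m) * g) * (C c * sg c (e i.succ)) =
        (C c ^ (2 * m) * g) * (C c ^ m * (C c * e i.succ)) := by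
      have e1 : (C c ^ (2 * m) * g) * (C c * sg c (e i.succ)) =
        C c ^ (2 * m + 1) * g * sg c (e i.succ) := by ring
      have e2 : (C c ^ (2 * m) * g) * (C c ^ m * (C c * e i.succ)) =
        C c ^ (3 * m + 1) * (g * e i.succ) := by ring
      rw [e1, e2, h1]
    exact mul_left_cancel₀ (mul_ne_zero (pow_ne_zero _ hC) hg0) h2
  funext i
  refine Fin.cases ?_ (fun i => ?_) i
  · exact h0
  · have h1 := hs i
    fin_cases i
    · exact h1
    · exact h1
    · exact h1

/-- The entries of `A` are homogeneous of degree two. -/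
theorem A_homog (B : Fin 3 → Matrix (Fin 6) (Fin 6) ℂ)
    (ha : ∀ j i, (a j i).IsHomogeneous m) (hb : ∀ j, (b j).IsHomogeneous (m + 1))
    {g : R3} (hg : g.IsHomogeneous (2 * m + 1)) (hg0 : g ≠ 0) {e : Fin 4 → R3}
    (he : ∀ k, mnr (Nm a b) k = g * e k) (hne : ∃ k, mnr (Nm a b) k ≠ 0) (γ : ℂ)
    {A : Matrix (Fin 3) (Fin 3) R3} (hA : ∀ i j, A i j = A j i)
    (h : ∀ v : Fin 4 → R3, pf (QR B) e v ^ 2 - 4 * C γ * g * qf (QR B) v =
      qf A (act (Nm a b) v)) (i j : Fin 3) : (A i j).IsHomogeneous 2 := by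
  -- scaling
  have key : ∀ (c : ℂ), c ≠ 0 → ∀ i j, sg c (A i j) = C c ^ 2 * A i j := by
    intro c hc
    have hC := C_ne hc
    have h1 : ∀ w : Fin 4 → R3, qf (A.map (sg c)) (act (Nm a b) w) =
        C c ^ 2 * qf A (act (Nm a b) w) := by
      intro w
      have h2 := transport (QR B) (Nm a b) A e (4 * C γ * g) h (sg c : R3 →+* R3) (dl (C c) w)
      have h3 : act ((Nm a b).map (sg c : R3 →+* R3)) (dl (C c) w) =
        (C c ^ (m + 1) : R3) • act (Nm a b) w := act_scale ha hb c w
      have h4 : qf ((QR B).map (sg c : R3 →+* R3)) (dl (C c) w) = C c ^ 3 * qf (QR B) w :=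
        qf_scale B c w
      rw [h3, h4, qf_smul] at h2
      have h5 : (sg c : R3 →+* R3) (4 * C γ * g) = C c ^ (2 * m + 1) * (4 * C γ * g) := by
        change sg c (4 * C γ * g) = _
        rw [map_mul, map_mul, sg_homog hg]
        have : sg c (C γ) = C γ := by
          rw [← MvPolynomial.algebraMap_eq]
          exact (sg c).commutes γ
        rw [this, map_ofNat]
        ring
      rw [h5] at h2
      have h6 : C c * pf ((QR B).map (sg c : R3 →+* R3)) (fun i => (sg c : R3 →+* R3) (e i))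
          (dl (C c) w) = C c ^ (m + 3) * pf (QR B) e w := by
        have h7 : C c * pf ((QR B).map (sg c : R3 →+* R3)) (fun i => (sg c : R3 →+* R3) (e i))
          (dl (C c) w) = pf ((QR B).map (sg c)) ((C c : R3) • (fun i => sg c (e i)))
            (dl (C c) w) := by
          rw [pf_smul_left]
          rfl
        rw [h7, e_scale ha hb hg hg0 he hc, pf_smul_left, pf_scale]
        ring
      have h8 := h w
      have h9 : (C c ^ (2 * m + 4)) * qf (A.map (sg c : R3 →+* R3)) (act (Nm a b) w) =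
          (C c ^ (2 * m + 4)) * (C c ^ 2 * qf A (act (Nm a b) w)) := by
        rw [← h8]
        have e1 : (C c ^ (2 * m + 4)) * qf (A.map (sg c : R3 →+* R3)) (act (Nm a b) w) =
            C c ^ 2 * ((C c ^ (m + 1)) ^ 2 * qf (A.map (sg c : R3 →+* R3)) (act (Nm a b) w)) := by
          ring
        rw [e1, ← h2]
        have e2 : C c ^ 2 * (pf ((QR B).map (sg c : R3 →+* R3))
            (fun i => (sg c : R3 →+* R3) (e i)) (dl (C c) w) ^ 2 -
            C c ^ (2 * m + 1) * (4 * C γ * g) * (C c ^ 3 * qf (QR B) w)) =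
            (C c * pf ((QR B).map (sg c : R3 →+* R3)) (fun i => (sg c : R3 →+* R3) (e i))
            (dl (C c) w)) ^ 2 - C c ^ 2 * C c ^ (2 * m + 1) * (4 * C γ * g) *
            (C c ^ 3 * qf (QR B) w) := by ring
        rw [e2, h6]
        ring
      exact mul_left_cancel₀ (pow_ne_zero _ hC) h9
    obtain ⟨k, hk⟩ := hne
    have h2 : ∀ x : Fin 3 → R3, qf (A.map (sg c)) x = qf ((C c ^ 2 : R3) • A) x := by
      intro x
      have h3 := h1 (act (lft (Nm a b) k) x)
      rw [act_lft, qf_smul, qf_smul] at h3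
      have h4 : qf ((C c ^ 2 : R3) • A) x = C c ^ 2 * qf A x := by
        simp only [qf, Matrix.smul_apply, smul_eq_mul, Algebra.algebraMap_self, RingHom.id_apply,
          Finset.mul_sum, mul_assoc]
      rw [h4]
      have h5 : mnr (Nm a b) k ^ 2 * qf (A.map (sg c)) x =
          mnr (Nm a b) k ^ 2 * (C c ^ 2 * qf A x) := by
        rw [h3]; ring
      exact mul_left_cancel₀ (pow_ne_zero 2 hk) h5
    intro i j
    have h3 := sym_ext two_ne_zero (A.map (sg c)) ((C c ^ 2 : R3) • A)
      (fun i j => by simp only [Matrix.map_apply]; rw [hA i j])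
      (fun i j => by simp only [Matrix.smul_apply]; rw [hA i j]) h2 i j
    exact h3
  apply homog_of_aeval
  intro c t hc
  have h1 := aeval_sg (A i j) c t
  rw [key c hc i j, map_mul, map_pow] at h1
  have h2 : aeval t (C c : R3) = c := by simp
  rw [h2] at h1
  exact h1.symm

end

lemma qf_transpose {k A : Type*} [CommRing k] [CommRing A] [Algebra k A] {n : ℕ}
    (Q : Matrix (Fin n) (Fin n) k) (w : Fin n → A) : qf Q.transpose w = qf Q w := by
  simp only [qf, Matrix.transpose_apply]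
  rw [Finset.sum_comm]
  refine Finset.sum_congr rfl fun i _ => Finset.sum_congr rfl fun j _ => ?_
  ring

lemma qf_smul_matrix {k A : Type*} [CommRing k] [CommRing A] [Algebra k A] {n : ℕ}
    (c : k) (Q : Matrix (Fin n) (Fin n) k) (w : Fin n → A) :
    qf (c • Q) w = algebraMap k A c * qf Q w := by
  simp only [qf, Matrix.smul_apply, smul_eq_mul, map_mul, Finset.mul_sum, mul_assoc]

/-- A homogeneous polynomial of degree two is given by a symmetric matrix. -/
lemma exists_sym_of_homog {n : ℕ} (p : MvPolynomial (Fin n) ℂ) (hp : p.IsHomogeneous 2) :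
    ∃ α : Matrix (Fin n) (Fin n) ℂ, (∀ i j, α i j = α j i) ∧
      p = qf α (X : Fin n → MvPolynomial (Fin n) ℂ) := by
  classical
  -- an arbitrary matrix
  have h1 : ∃ α : Matrix (Fin n) (Fin n) ℂ, p = qf α (X : Fin n → MvPolynomial (Fin n) ℂ) := by
    have hmon : ∀ (d : Fin n →₀ ℕ), d.degree = 2 → ∀ c : ℂ, ∃ α : Matrix (Fin n) (Fin n) ℂ,
        monomial d c = qf α (X : Fin n → MvPolynomial (Fin n) ℂ) := by
      intro d hd c
      have split : ∀ (m : Fin n →₀ ℕ), m.degree ≠ 0 →
          ∃ i m', m = Finsupp.single i 1 + m' ∧ m.degree = m'.degree + 1 := by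
        intro m hm
        obtain ⟨i, hi⟩ : ∃ i, m i ≠ 0 := by
          by_contra h
          push Not at h
          apply hm
          have : m = 0 := Finsupp.ext h
          rw [this]
          simp
        have hle : Finsupp.single i 1 ≤ m := by
          rw [Finsupp.single_le_iff]
          omega
        refine ⟨i, m - Finsupp.single i 1, (add_tsub_cancel_of_le hle).symm, ?_⟩
        have hd := congrArg Finsupp.degree (add_tsub_cancel_of_le hle)
        rw [map_add, Finsupp.degree_single] at hd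
        omega
      obtain ⟨i, d1, h1, hd1⟩ := split d (by omega)
      obtain ⟨j, d2, h2, hd2⟩ := split d1 (by omega)
      have h0 : d2 = 0 := by
        rw [← Finsupp.degree_eq_zero_iff]
        omega
      refine ⟨Matrix.single i j c, ?_⟩
      rw [qf_single, h1, h2, h0, add_zero, MvPolynomial.algebraMap_eq]
      simp only [X, C_mul_monomial, monomial_mul, mul_one]
    have hsum : ∀ s : Finset (Fin n →₀ ℕ), (∀ d ∈ s, d.degree = 2) → ∃ α : Matrix (Fin n) (Fin n) ℂ,
        ∑ d ∈ s, monomial d (coeff d p) = qf α (X : Fin n → MvPolynomial (Fin n) ℂ) := by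
      intro s
      induction s using Finset.induction_on with
      | empty => exact fun _ => ⟨0, by rw [qf_zero_matrix]; simp⟩
      | insert d s hd ih =>
        intro h
        obtain ⟨α1, h1⟩ := ih fun d' hd' => h d' (Finset.mem_insert_of_mem hd')
        obtain ⟨α2, h2⟩ := hmon d (h d (Finset.mem_insert_self d s)) (coeff d p)
        exact ⟨α2 + α1, by rw [Finset.sum_insert hd, h1, h2, qf_add_matrix]⟩
    obtain ⟨α, hα⟩ := hsum p.support fun d hd => by
      have := hp (mem_support_iff.mp hd)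
      rw [Finsupp.degree_eq_weight_one]
      exact this
    exact ⟨α, by rw [← hα]; exact p.as_sum⟩
  obtain ⟨α, hα⟩ := h1
  refine ⟨(1 / 2 : ℂ) • (α + α.transpose), fun i j => by simp [add_comm], ?_⟩
  rw [qf_smul_matrix, qf_add_matrix, qf_transpose, hα, ← two_mul, ← mul_assoc,
    MvPolynomial.algebraMap_eq]
  have : (2 : MvPolynomial (Fin n) ℂ) = C 2 := (map_ofNat C 2).symm
  rw [this, ← C_mul]
  norm_num

end Vale.Agent.P287.H631
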