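import Vale.Agent.P287.H631.Pt
import Vale.Agent.P287.FunctionField

/-!
The second quadric surface fibration.
-/

open MvPolynomial

namespace Vale.Agent.P287.H631

open Vale.Agent.P287

/-- The value of the form of bidegree `(2, 2)`, as quadratic form in the first set of variables. -/
noncomputable def th {K : Type*} [CommRing K] [Algebra ℂ K]
    (Θ : Fin 3 → Fin 3 → Matrix (Fin 3) (Fin 3) ℂ) (x : Fin 3 → K) (a b : Fin 3) : K :=
  ∑ i, ∑ j, algebraMap ℂ K (Θ i j a b) * (x i * x j)

/-- The matrix of the quadratic form `s ^ 2 - ∑ Θ i j a b x i x j t a t b` in `(t, s)`. -/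
noncomputable def Q2 {K : Type*} [CommRing K] [Algebra ℂ K]
    (Θ : Fin 3 → Fin 3 → Matrix (Fin 3) (Fin 3) ℂ) (x : Fin 3 → K) : Matrix (Fin 4) (Fin 4) K :=
  ![![-th Θ x 0 0, -th Θ x 0 1, -th Θ x 0 2, 0], ![-th Θ x 1 0, -th Θ x 1 1, -th Θ x 1 2, 0],
    ![-th Θ x 2 0, -th Θ x 2 1, -th Θ x 2 2, 0], ![0, 0, 0, 1]]

/-- The vector `(t, s)`. -/
def tv {A : Type*} (t : Fin 3 → A) (s : A) : Fin 4 → A := ![t 0, t 1, t 2, s]

section

variable {K A : Type*} [CommRing K] [CommRing A] [Algebra ℂ K] [Algebra ℂ A] [Algebra K A]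
  [IsScalarTower ℂ K A]

lemma map_th (Θ : Fin 3 → Fin 3 → Matrix (Fin 3) (Fin 3) ℂ) (x : Fin 3 → K) (a b : Fin 3) :
    algebraMap K A (th Θ x a b) = th Θ (fun i => algebraMap K A (x i)) a b := by
  simp only [th, map_sum, map_mul, ← IsScalarTower.algebraMap_apply ℂ K A]

lemma sum_th (Θ : Fin 3 → Fin 3 → Matrix (Fin 3) (Fin 3) ℂ) (x t : Fin 3 → A) :
    ∑ a, ∑ b, th Θ x a b * (t a * t b) = ∑ i, ∑ j, qf (Θ i j) t * (x i * x j) := by
  simp only [th, qf, Finset.sum_mul]
  have h : ∀ f : Fin 3 → Fin 3 → Fin 3 → Fin 3 → A, ∑ a, ∑ b, ∑ i, ∑ j, f a b i j =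
      ∑ i, ∑ j, ∑ a, ∑ b, f a b i j := by
    intro f
    calc ∑ a, ∑ b, ∑ i, ∑ j, f a b i j = ∑ a, ∑ i, ∑ b, ∑ j, f a b i j := by
          refine Finset.sum_congr rfl fun a _ => Finset.sum_comm
      _ = ∑ i, ∑ a, ∑ b, ∑ j, f a b i j := Finset.sum_comm
      _ = ∑ i, ∑ a, ∑ j, ∑ b, f a b i j := by
          refine Finset.sum_congr rfl fun i _ => Finset.sum_congr rfl fun a _ => Finset.sum_comm
      _ = ∑ i, ∑ j, ∑ a, ∑ b, f a b i j := by
          refine Finset.sum_congr rfl fun i _ => Finset.sum_comm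
  rw [h]
  refine Finset.sum_congr rfl fun i _ => Finset.sum_congr rfl fun j _ =>
    Finset.sum_congr rfl fun a _ => Finset.sum_congr rfl fun b _ => ?_
  ring

lemma qf_Q2 (Θ : Fin 3 → Fin 3 → Matrix (Fin 3) (Fin 3) ℂ) (x : Fin 3 → K) (t : Fin 3 → A)
    (s : A) : qf (Q2 Θ x) (tv t s) =
      s ^ 2 - ∑ i, ∑ j, qf (Θ i j) t * (algebraMap K A (x i) * algebraMap K A (x j)) := by
  rw [← sum_th Θ (fun i => algebraMap K A (x i)) t]
  simp only [← map_th]
  simp [qf, Q2, tv, Fin.sum_univ_four, Fin.sum_univ_three]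
  ring

end

/-- If `E` is generated by `t, x, s` with `s ^ 2 = Θ (x, t)` and the second quadric surface has a
rational point outside of the radical, four generators suffice. -/
theorem fourGenerated_of_second {E : Type} [Field E] [Algebra ℂ E]
    (htr : (4 : Cardinal) ≤ Algebra.trdeg ℂ E)
    (t x : Fin 3 → E) (s : E) (ht : t 0 = 1) (hx : x 0 = 1)
    (hgen : ∀ F : IntermediateField ℂ E, (∀ i, t i ∈ F) → (∀ i, x i ∈ F) → s ∈ F → F = ⊤)
    (Θ : Fin 3 → Fin 3 → Matrix (Fin 3) (Fin 3) ℂ)
    (hs : s ^ 2 = ∑ i, ∑ j, qf (Θ i j) t * (x i * x j))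
    (v u : Fin 4 → RatK) (hv : qf (Q2 Θ tvec) v = 0) (hu : pf (Q2 Θ tvec) v u ≠ 0) :
    FourGenerated E := by
  classical
  -- the transcendence basis
  let z : Fin 4 → E := ![x 1, x 2, t 1, t 2]
  set A0 : Subalgebra ℂ E := Algebra.adjoin ℂ (Set.range z) with hA0
  have hzA : ∀ i, IsAlgebraic A0 (z i) := fun i =>
    isAlgebraic_algebraMap (R := A0) (A := E) ⟨z i, Algebra.subset_adjoin ⟨i, rfl⟩⟩
  let F : IntermediateField ℂ E :=
    { carrier := {e | IsAlgebraic A0 e}
      mul_mem' := fun ha hb => IsAlgebraic.mul ha hb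
      add_mem' := fun ha hb => IsAlgebraic.add ha hb
      algebraMap_mem' := fun r =>
        isAlgebraic_algebraMap (R := A0) (A := E) (algebraMap ℂ A0 r)
      inv_mem' := fun e he => IsAlgebraic.inv he }
  have hF : ∀ e, e ∈ F ↔ IsAlgebraic A0 e := fun e => Iff.rfl
  have hxF : ∀ i, x i ∈ F := by
    intro i
    fin_cases i
    · change x 0 ∈ F
      rw [hx]; exact F.one_mem
    · exact hzA 0
    · exact hzA 1
  have htF : ∀ i, t i ∈ F := by
    intro i
    fin_cases i
    · change t 0 ∈ F
      rw [ht]; exact F.one_mem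
    · exact hzA 2
    · exact hzA 3
  have hsF : s ∈ F := by
    have h1 : s ^ 2 ∈ F := by
      rw [hs]
      refine F.sum_mem fun i _ => F.sum_mem fun j _ => ?_
      exact F.mul_mem (qf_mem F _ htF) (F.mul_mem (hxF i) (hxF j))
    rw [hF] at h1 ⊢
    exact h1.of_pow two_pos
  have htop := hgen F htF hxF hsF
  have halg : Algebra.IsAlgebraic A0 E := by
    constructor
    intro e
    rw [← hF, htop]
    trivial
  have hb := Algebra.IsAlgebraic.isTranscendenceBasis_of_le_trdeg_of_finite ℂ z (by simpa using htr)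
  have hind : AlgebraicIndependent ℂ ![x 1, x 2] := by
    have h1 := hb.1.comp (![0, 1] : Fin 2 → Fin 4) (by decide)
    have h2 : z ∘ (![0, 1] : Fin 2 → Fin 4) = ![x 1, x 2] := by
      funext i
      fin_cases i <;> rfl
    rwa [h2] at h1
  -- the second structure of an algebra over the field of rational functions
  have hinj : Function.Injective (aeval (R := ℂ) ![x 1, x 2] : MvPolynomial (Fin 2) ℂ →ₐ[ℂ] E) := hind
  let ι : RatK →ₐ[ℂ] E := IsFractionRing.liftAlgHom (K := RatK) hinj
  have hι : ∀ n, ι (algebraMap (MvPolynomial (Fin 2) ℂ) RatK n) = aeval ![x 1, x 2] n := by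
    intro n
    exact IsFractionRing.lift_algebraMap hinj n
  let _ : Algebra RatK E := ι.toRingHom.toAlgebra
  have hιa : ∀ c : RatK, algebraMap RatK E c = ι c := fun c => rfl
  have : IsScalarTower ℂ RatK E := IsScalarTower.of_algebraMap_eq fun c => by
    rw [hιa]
    exact (ι.commutes c).symm
  have htx : ∀ i, algebraMap RatK E (tvec i) = x i := by
    intro i
    rw [hιa]
    fin_cases i
    · change ι 1 = x 0
      rw [map_one, hx]
    · change ι (algebraMap (MvPolynomial (Fin 2) ℂ) RatK (X 0)) = x 1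
      rw [hι]
      simp
    · change ι (algebraMap (MvPolynomial (Fin 2) ℂ) RatK (X 1)) = x 2
      rw [hι]
      simp
  have H : QPt RatK E tvec (Q2 Θ tvec) (tv t s) :=
    { t0 := rfl
      hK := by
        intro F hF c
        obtain ⟨n, d, hd, rfl⟩ := IsFractionRing.div_surjective (A := MvPolynomial (Fin 2) ℂ) c
        have hmem : ∀ n : MvPolynomial (Fin 2) ℂ, aeval ![x 1, x 2] n ∈ F := by
          intro n
          induction n using MvPolynomial.induction_on with
          | C a =>
            rw [aeval_C]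
            exact F.algebraMap_mem a
          | add p q hp hq => rw [map_add]; exact F.add_mem hp hq
          | mul_X p i hp =>
            rw [map_mul, aeval_X]
            refine F.mul_mem hp ?_
            fin_cases i
            · have := hF 1
              rw [htx] at this
              exact this
            · have := hF 2
              rw [htx] at this
              exact this
        rw [hιa, map_div₀, hι, hι]
        exact F.div_mem (hmem n) (hmem d)
      hE := by
        intro F hF1 hF2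
        refine hgen F ?_ ?_ (hF2 3)
        · intro i
          fin_cases i
          · exact hF2 0
          · exact hF2 1
          · exact hF2 2
        · intro i
          rw [← htx]
          exact hF1 _
      η0 := ht
      hq := by
        rw [qf_Q2, hs]
        simp only [htx]
        exact sub_self _ }
  exact H.fourGenerated v u hv hu

end Vale.Agent.P287.H631
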