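import Vale.Agent.P287.H631.Family

/-!
Differentiation of the main identity at a critical point.
-/

open MvPolynomial

namespace Vale.Agent.P287.H631

open Vale.Agent.P287

section

variable {E : Type} [Field E] [Algebra ℂ E]

/-- The line through `w` with direction `ω`. -/
noncomputable def ln {n : ℕ} (w ω : Fin n → E) : Fin n → Polynomial E :=
  fun i => Polynomial.C (w i) + Polynomial.C (ω i) * Polynomial.X

omit [Algebra ℂ E] in
lemma ln_coeff0 {n : ℕ} (w ω : Fin n → E) (i : Fin n) : (ln w ω i).coeff 0 = w i := by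
  simp [ln]

omit [Algebra ℂ E] in
lemma ln_coeff1 {n : ℕ} (w ω : Fin n → E) (i : Fin n) : (ln w ω i).coeff 1 = ω i := by
  simp [ln]

lemma coeff0_algebraMap (c : ℂ) : (algebraMap ℂ (Polynomial E) c).coeff 0 = algebraMap ℂ E c := by
  rw [IsScalarTower.algebraMap_apply ℂ E (Polynomial E)]
  exact Polynomial.coeff_C_zero

lemma coeff1_algebraMap (c : ℂ) : (algebraMap ℂ (Polynomial E) c).coeff 1 = 0 := by
  rw [IsScalarTower.algebraMap_apply ℂ E (Polynomial E)]
  exact Polynomial.coeff_C_succ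

lemma qf_ln_coeff0 {n : ℕ} (Q : Matrix (Fin n) (Fin n) ℂ) (w ω : Fin n → E) :
    (qf Q (ln w ω)).coeff 0 = qf Q w := by
  simp only [qf, Polynomial.finsetSum_coeff, coeff0_algebraMap, Polynomial.mul_coeff_zero,
    ln_coeff0]

lemma qf_ln_coeff1 {n : ℕ} (Q : Matrix (Fin n) (Fin n) ℂ) (w ω : Fin n → E) :
    (qf Q (ln w ω)).coeff 1 = pf Q w ω := by
  simp only [qf, pf, Polynomial.finsetSum_coeff, coeff0_algebraMap, coeff1_algebraMap,
    Polynomial.mul_coeff_one, ln_coeff0, ln_coeff1]
  refine Finset.sum_congr rfl fun i _ => Finset.sum_congr rfl fun j _ => ?_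
  ring

/-- If the main identity holds and the point is critical on the right hand side, then it is critical
for the cubic form. -/
theorem partials_zero (B : Fin 3 → Matrix (Fin 6) (Fin 6) ℂ) (N : Matrix (Fin 3) (Fin 4) R3)
    (Θ : Fin 3 → Fin 3 → Matrix (Fin 3) (Fin 3) ℂ) (e : Fin 4 → R3) (r : R3)
    (h : ∀ v : Fin 4 → R3, pf (QR B) e v ^ 2 - r * qf (QR B) v =
      qf (Matrix.of fun i j => qf (Θ i j) (X : Fin 3 → R3)) (act N v))
    (t x : Fin 3 → E) (v : Fin 4 → E) (c : E) (hv0 : v 0 = 1)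
    (hF : net B t (wvec t v) = 0)
    (hs : pf ((QR B).map (aeval t : R3 →ₐ[ℂ] E)) (fun i => aeval t (e i)) v = 0)
    (hf : act (N.map (aeval t : R3 →ₐ[ℂ] E)) v = c • x)
    (h1 : ∀ i, ∑ j, qf (Θ i j) t * x j = 0) (h2 : ∀ j, ∑ i, qf (Θ i j) t * x i = 0)
    (h3 : ∀ τ : Fin 3 → E, ∑ i, ∑ j, pf (Θ i j) t τ * (x i * x j) = 0)
    (hr : aeval t r ≠ 0) (i : Fin 6) :
    aeval (wvec t v) (pderiv i (cubic B)) = 0 := by
  classical
  set ζ : Fin 6 → E := Pi.single i 1 with hζ
  set τ : Fin 3 → E := fun k => ζ (Fin.castAdd 3 k) with hτ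
  set ν : Fin 4 → E := ![0, ζ 3, ζ 4, ζ 5] with hν
  set t' : Fin 3 → Polynomial E := ln t τ with ht'
  set v' : Fin 4 → Polynomial E := ln v ν with hv'
  set ψ : R3 →ₐ[ℂ] E := aeval t with hψ
  set ψ' : R3 →ₐ[ℂ] Polynomial E := aeval t' with hψ'
  have hcomp : ∀ p, (ψ' p).coeff 0 = ψ p := by
    intro p
    let ev : Polynomial E →ₐ[ℂ] E := (Polynomial.aeval (0 : E)).restrictScalars ℂ
    have h1 : ev.comp ψ' = ψ := by
      apply MvPolynomial.algHom_ext
      intro k
      simp [ψ', ψ, ev, t', ln]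
    have h2 := DFunLike.congr_fun h1 p
    rw [← h2, Polynomial.coeff_zero_eq_aeval_zero]
    rfl
  have hw : wvec t' v' = ln (wvec t v) ζ := by
    have hv'0 : v' 0 = 1 := by
      simp [v', ln, hv0, ν]
    funext j
    fin_cases j
    · change v' 0 * t' 0 = Polynomial.C (v 0 * t 0) + Polynomial.C (ζ 0) * Polynomial.X
      rw [hv'0, hv0, one_mul, one_mul]
      rfl
    · change v' 0 * t' 1 = Polynomial.C (v 0 * t 1) + Polynomial.C (ζ 1) * Polynomial.X
      rw [hv'0, hv0, one_mul, one_mul]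
      rfl
    · change v' 0 * t' 2 = Polynomial.C (v 0 * t 2) + Polynomial.C (ζ 2) * Polynomial.X
      rw [hv'0, hv0, one_mul, one_mul]
      rfl
    · rfl
    · rfl
    · rfl
  -- the identity on the line
  have key := transport (QR B) N (Matrix.of fun i j => qf (Θ i j) (X : Fin 3 → R3)) e r h
    (ψ' : R3 →+* Polynomial E) v'
  have hq : qf ((QR B).map (ψ' : R3 →+* Polynomial E)) v' = net B t' (wvec t' v') :=
    qf_QR B t' v'
  rw [hq] at key
  have c1 := congrArg (fun p => Polynomial.coeff p 1) key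
  simp only [Polynomial.coeff_sub, sq, Polynomial.mul_coeff_one] at c1
  have e1 : (pf ((QR B).map (ψ' : R3 →+* Polynomial E))
      (fun i => (ψ' : R3 →+* Polynomial E) (e i)) v').coeff 0 = 0 := by
    rw [← hs]
    simp only [pf, Polynomial.finsetSum_coeff, Polynomial.mul_coeff_zero, Polynomial.coeff_add,
      Algebra.algebraMap_self, RingHom.id_apply, Matrix.map_apply]
    refine Finset.sum_congr rfl fun i _ => Finset.sum_congr rfl fun j _ => ?_
    have hc : ∀ p, ((ψ' : R3 →+* Polynomial E) p).coeff 0 = ψ p := hcomp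
    rw [hc, hc, hc, ln_coeff0, ln_coeff0]
  have e2 : (net B t' (wvec t' v')).coeff 0 = 0 := by
    rw [← hF, hw]
    simp only [net, Polynomial.finsetSum_coeff, Polynomial.mul_coeff_zero, qf_ln_coeff0, t',
      ln_coeff0]
  have e3 : (net B t' (wvec t' v')).coeff 1 = aeval (wvec t v) (pderiv i (cubic B)) := by
    rw [aeval_pderiv_cubic, hw]
    simp only [net, Polynomial.finsetSum_coeff, Polynomial.mul_coeff_one, qf_ln_coeff0,
      qf_ln_coeff1, t', ln_coeff0, ln_coeff1]
    refine Finset.sum_congr rfl fun k _ => ?_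
    have : wvec t v (Fin.castAdd 3 k) = t k := by
      fin_cases k <;> simp [wvec, hv0]
    rw [this]
    change t k * pf (B k) (wvec t v) ζ + ζ (Fin.castAdd 3 k) * qf (B k) (wvec t v) = _
    ring
  have e4 : ((ψ' : R3 →+* Polynomial E) r).coeff 0 = ψ r := hcomp r
  have e5 : (qf ((Matrix.of fun i j => qf (Θ i j) (X : Fin 3 → R3)).map
      (ψ' : R3 →+* Polynomial E)) (act (N.map (ψ' : R3 →+* Polynomial E)) v')).coeff 1 = 0 := by
    have hA : ∀ i j, (ψ' : R3 →+* Polynomial E) (qf (Θ i j) (X : Fin 3 → R3)) =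
        qf (Θ i j) t' := by
      intro i j
      have := map_qf ψ' (Θ i j) (X : Fin 3 → R3)
      simp only [ψ', aeval_X] at this
      exact this
    have hf0 : ∀ i, (act (N.map (ψ' : R3 →+* Polynomial E)) v' i).coeff 0 = c * x i := by
      intro i
      have h4 := congrFun hf i
      simp only [Pi.smul_apply, smul_eq_mul] at h4
      rw [← h4]
      simp only [act, Polynomial.finsetSum_coeff, Polynomial.mul_coeff_zero,
        Algebra.algebraMap_self, RingHom.id_apply, Matrix.map_apply]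
      refine Finset.sum_congr rfl fun j _ => ?_
      have hc : ∀ p, ((ψ' : R3 →+* Polynomial E) p).coeff 0 = ψ p := hcomp
      rw [hc, ln_coeff0]
    set f := act (N.map (ψ' : R3 →+* Polynomial E)) v' with hfdef
    have h5 : qf ((Matrix.of fun i j => qf (Θ i j) (X : Fin 3 → R3)).map
        (ψ' : R3 →+* Polynomial E)) f = ∑ i, ∑ j, qf (Θ i j) t' * (f i * f j) := by
      simp only [qf, Matrix.map_apply, Matrix.of_apply, Algebra.algebraMap_self,
        RingHom.id_apply]
      refine Finset.sum_congr rfl fun i _ => Finset.sum_congr rfl fun j _ => ?_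
      congr 1
      exact hA i j
    rw [h5]
    simp only [Polynomial.finsetSum_coeff, Polynomial.mul_coeff_one, Polynomial.mul_coeff_zero,
      t', qf_ln_coeff0, qf_ln_coeff1, hf0]
    have h6 : ∀ i j, qf (Θ i j) t * (c * x i * (f j).coeff 1 + (f i).coeff 1 * (c * x j)) +
        pf (Θ i j) t τ * (c * x i * (c * x j)) =
        c * (f j).coeff 1 * (qf (Θ i j) t * x i) + c * (f i).coeff 1 * (qf (Θ i j) t * x j) +
        c ^ 2 * (pf (Θ i j) t τ * (x i * x j)) := by
      intro i j
      ring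
    simp only [h6, Finset.sum_add_distrib, ← Finset.mul_sum, h1, h3, mul_zero, add_zero]
    rw [Finset.sum_comm]
    simp only [← Finset.mul_sum, h2, mul_zero, Finset.sum_const_zero]
  rw [e1, e2, e3, e4, e5] at c1
  have h7 : ψ r * aeval (wvec t v) (pderiv i (cubic B)) = 0 := by
    linear_combination -c1
  exact (mul_eq_zero.mp h7).resolve_left hr

end

end Vale.Agent.P287.H631
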