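import Vale.Agent.P287.FunctionField

/-!
Extension of the coordinate derivations to algebraic extensions of `ℂ(s₀, s₁)`.
-/

open MvPolynomial

namespace Vale.Agent.P287.H631

open Vale.Agent.P287

/-- The coordinate derivations extend to algebraic extensions of the field of rational functions. -/
theorem exists_der {E : Type} [Field E] [Algebra ℂ E] [Algebra RatK E] [IsScalarTower ℂ RatK E]
    [Algebra.IsAlgebraic RatK E] (k : Fin 2) :
    ∃ D : Derivation ℂ E E, ∀ i : Fin 2,
      D (algebraMap RatK E (algebraMap (MvPolynomial (Fin 2) ℂ) RatK (X i))) =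
        (Pi.single k 1 : Fin 2 → E) i := by
  classical
  let _ : Algebra (MvPolynomial (Fin 2) ℂ) E :=
    ((algebraMap RatK E).comp (algebraMap (MvPolynomial (Fin 2) ℂ) RatK)).toAlgebra
  have i1 : IsScalarTower (MvPolynomial (Fin 2) ℂ) RatK E := IsScalarTower.of_algebraMap_eq fun c => rfl
  have i2 : IsScalarTower ℂ (MvPolynomial (Fin 2) ℂ) E := IsScalarTower.of_algebraMap_eq fun c => by
    rw [IsScalarTower.algebraMap_apply ℂ RatK E,
      IsScalarTower.algebraMap_apply ℂ (MvPolynomial (Fin 2) ℂ) RatK]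
    rfl
  have : CharZero RatK := charZero_of_injective_algebraMap (algebraMap ℂ RatK).injective
  have i3 : Algebra.FormallyEtale (MvPolynomial (Fin 2) ℂ) RatK :=
    Algebra.FormallyEtale.of_isLocalization (nonZeroDivisors (MvPolynomial (Fin 2) ℂ))
  have i4 : Algebra.FormallyEtale RatK E := Algebra.FormallyEtale.of_isSeparable RatK E
  have i5 : Algebra.FormallyEtale (MvPolynomial (Fin 2) ℂ) E := Algebra.FormallyEtale.comp _ RatK E
  let D0 : Derivation ℂ (MvPolynomial (Fin 2) ℂ) E := mkDerivation ℂ (Pi.single k 1 : Fin 2 → E)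
  let L : TensorProduct (MvPolynomial (Fin 2) ℂ) E (Ω[MvPolynomial (Fin 2) ℂ⁄ℂ]) →ₗ[E] E :=
    D0.liftKaehlerDifferential.liftBaseChange E
  let T := KaehlerDifferential.tensorKaehlerEquivOfFormallyEtale ℂ (MvPolynomial (Fin 2) ℂ) E
  refine ⟨(L.comp T.symm.toLinearMap).compDer (KaehlerDifferential.D ℂ E), fun i => ?_⟩
  change L (T.symm (KaehlerDifferential.D ℂ E (algebraMap (MvPolynomial (Fin 2) ℂ) E (X i)))) = _
  rw [KaehlerDifferential.tensorKaehlerEquivOfFormallyEtale_symm_D_algebraMap]
  simp [L, D0]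

end Vale.Agent.P287.H631
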