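import Vale.Agent.P287.Smooth

/-!
Smoothness over extension fields.
-/

open MvPolynomial

namespace Vale.Agent.P287.H631

open Vale.Agent.P287

/-- The first derivatives of a smooth form have no common zero over extension fields. -/
theorem smooth_ext {F : MvPolynomial (Fin 6) ℂ} (hs : SmoothForm F) {E : Type*} [Field E]
    [Algebra ℂ E] (z : Fin 6 → E) (hz : ∀ i, aeval z (pderiv i F) = 0) : z = 0 := by
  classical
  set I : Ideal (MvPolynomial (Fin 6) ℂ) := Ideal.span (Set.range fun i => pderiv i F) with hI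
  have hrad : I.radical = vanishingIdeal ℂ (zeroLocus ℂ I) :=
    (vanishingIdeal_zeroLocus_eq_radical I).symm
  funext i
  have h1 : (X i : MvPolynomial (Fin 6) ℂ) ∈ I.radical := by
    rw [hrad, mem_vanishingIdeal_iff]
    intro x hx
    have hx0 : x = 0 := by
      apply hs
      intro j
      exact (mem_zeroLocus_iff.mp hx) _ (Ideal.subset_span ⟨j, rfl⟩)
    rw [hx0]
    simp
  obtain ⟨n, hn⟩ := h1
  have h2 : ∀ p ∈ I, aeval z p = 0 := by
    intro p hp
    have h3 : I ≤ RingHom.ker (aeval z : MvPolynomial (Fin 6) ℂ →ₐ[ℂ] E) := by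
      rw [hI, Ideal.span_le]
      rintro _ ⟨j, rfl⟩
      exact hz j
    exact h3 hp
  have h3 := h2 _ hn
  rw [map_pow, aeval_X] at h3
  exact eq_zero_of_pow_eq_zero h3

end Vale.Agent.P287.H631
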