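import Vale.Agent.P287.H631.Crit
import Vale.Agent.P287.H631.Second
import Vale.Agent.P287.H631.DerExt
import Vale.Agent.P287.H631.SmoothExt

/-!
A point of a smooth cubic fourfold gives a smooth point of the second quadric surface.
-/

open MvPolynomial

namespace Vale.Agent.P287.H631

open Vale.Agent.P287

section

variable {K A : Type*} [CommRing K] [CommRing A] [Algebra ℂ K] [Algebra ℂ A] [Algebra K A]
  [IsScalarTower ℂ K A]

omit [Algebra ℂ A] in
lemma tv_add (t τ : Fin 3 → A) (s σ : A) : tv t s + tv τ σ = tv (t + τ) (s + σ) := by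
  funext i
  fin_cases i <;> rfl

lemma pf_Q2 (Θ : Fin 3 → Fin 3 → Matrix (Fin 3) (Fin 3) ℂ) (x : Fin 3 → K) (t τ : Fin 3 → A)
    (s σ : A) : pf (Q2 Θ x) (tv t s) (tv τ σ) =
      2 * s * σ - ∑ i, ∑ j, pf (Θ i j) t τ * (algebraMap K A (x i) * algebraMap K A (x j)) := by
  rw [pf_eq_sub, tv_add, qf_Q2, qf_Q2, qf_Q2]
  simp only [qf_add, add_mul, Finset.sum_add_distrib]
  ring

end

section

variable {E : Type} [Field E] [Algebra ℂ E] [Algebra RatK E] [IsScalarTower ℂ RatK E]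

/-- Either the point of the second quadric surface is smooth, or it is critical. -/
theorem point_or_crit [Algebra.IsAlgebraic RatK E] (B : Fin 3 → Matrix (Fin 6) (Fin 6) ℂ)
    (N : Matrix (Fin 3) (Fin 4) R3)
    (Θ : Fin 3 → Fin 3 → Matrix (Fin 3) (Fin 3) ℂ) (hΘ : ∀ i j, Θ i j = Θ j i)
    (e : Fin 4 → R3) (r : R3)
    (h : ∀ v : Fin 4 → R3, pf (QR B) e v ^ 2 - r * qf (QR B) v =
      qf (Matrix.of fun i j => qf (Θ i j) (X : Fin 3 → R3)) (act N v))
    (t : Fin 3 → E) (v : Fin 4 → E) (c : E) (hc : c ≠ 0)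
    (hF : net B t (wvec t v) = 0)
    (hf : act (N.map (aeval t : R3 →ₐ[ℂ] E)) v = c • fun i => algebraMap RatK E (tvec i)) :
    (∃ w u : Fin 4 → E, qf (Q2 Θ tvec) w = 0 ∧ pf (Q2 Θ tvec) w u ≠ 0) ∨
    (pf ((QR B).map (aeval t : R3 →ₐ[ℂ] E)) (fun i => aeval t (e i)) v = 0 ∧
      (∀ τ : Fin 3 → E, ∑ i, ∑ j, pf (Θ i j) t τ *
        (algebraMap RatK E (tvec i) * algebraMap RatK E (tvec j)) = 0) ∧
      ∀ i, ∑ j, qf (Θ i j) t * algebraMap RatK E (tvec j) = 0) := by
  classical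
  set x : Fin 3 → E := fun i => algebraMap RatK E (tvec i) with hx
  set s0 : E := pf ((QR B).map (aeval t : R3 →ₐ[ℂ] E)) (fun i => aeval t (e i)) v with hs0
  set s1 : E := c⁻¹ * s0 with hs1
  -- the identity at the point
  have key := transport (QR B) N (Matrix.of fun i j => qf (Θ i j) (X : Fin 3 → R3)) e r h
    ((aeval t : R3 →ₐ[ℂ] E) : R3 →+* E) v
  have hq : qf ((QR B).map ((aeval t : R3 →ₐ[ℂ] E) : R3 →+* E)) v = net B t (wvec t v) :=
    qf_QR B t v
  rw [hq, hF, mul_zero, sub_zero] at key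
  have hsq : s0 ^ 2 = c ^ 2 * ∑ i, ∑ j, qf (Θ i j) t * (x i * x j) := by
    have h1 : act (N.map ((aeval t : R3 →ₐ[ℂ] E) : R3 →+* E)) v = c • x := hf
    rw [h1, qf_smul] at key
    refine key.trans ?_
    congr 1
    simp only [qf, Matrix.map_apply, Matrix.of_apply, Algebra.algebraMap_self,
      RingHom.id_apply]
    refine Finset.sum_congr rfl fun i _ => Finset.sum_congr rfl fun j _ => ?_
    congr 1
    have := map_qf (aeval t : R3 →ₐ[ℂ] E) (Θ i j) (X : Fin 3 → R3)
    simp only [aeval_X] at this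
    exact this
  have hsq1 : s1 ^ 2 = ∑ i, ∑ j, qf (Θ i j) t * (x i * x j) := by
    rw [hs1, mul_pow, hsq, ← mul_assoc, ← mul_pow, inv_mul_cancel₀ hc, one_pow, one_mul]
  have hz : qf (Q2 Θ tvec) (tv t s1) = 0 := by
    rw [qf_Q2, hsq1]
    exact sub_self _
  by_cases hcon : ∃ w u : Fin 4 → E, qf (Q2 Θ tvec) w = 0 ∧ pf (Q2 Θ tvec) w u ≠ 0
  · exact Or.inl hcon
  refine Or.inr ?_
  push Not at hcon
  have hall := fun u => hcon (tv t s1) u hz
  have h20 : (2 : E) ≠ 0 := by
    have : CharZero E := charZero_of_injective_algebraMap (algebraMap ℂ E).injective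
    exact two_ne_zero
  have hs10 : s1 = 0 := by
    have h1 := hall (tv 0 1)
    rw [pf_Q2] at h1
    simp only [pf_zero_right, zero_mul, Finset.sum_const_zero, sub_zero, mul_one] at h1
    exact (mul_eq_zero.mp h1).resolve_left h20
  have h3 : ∀ τ : Fin 3 → E, ∑ i, ∑ j, pf (Θ i j) t τ * (x i * x j) = 0 := by
    intro τ
    have h1 := hall (tv τ 0)
    rw [pf_Q2, mul_zero, zero_sub, neg_eq_zero] at h1
    exact h1
  have hsum : ∑ i, ∑ j, qf (Θ i j) t * (x i * x j) = 0 := by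
    rw [← hsq1, hs10]
    ring
  -- the derivatives with respect to `x`
  have hder : ∀ D : Derivation ℂ E E, ∑ i, D (x i) * ∑ j, qf (Θ i j) t * x j = 0 := by
    intro D
    have h1 := congrArg D hsum
    rw [map_sum, map_zero] at h1
    have h2 : ∀ i j, D (qf (Θ i j) t * (x i * x j)) = pf (Θ i j) t (fun a => D (t a)) *
        (x i * x j) + (D (x i) * (qf (Θ i j) t * x j) + D (x j) * (qf (Θ i j) t * x i)) := by
      intro i j
      rw [Derivation.leibniz, Derivation.leibniz, derivation_qf]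
      simp only [smul_eq_mul]
      ring
    simp only [map_sum, h2, Finset.sum_add_distrib, h3, zero_add] at h1
    have h4 : ∑ i, ∑ j, D (x j) * (qf (Θ i j) t * x i) = ∑ i, ∑ j, D (x i) * (qf (Θ i j) t * x j) := by
      rw [Finset.sum_comm]
      refine Finset.sum_congr rfl fun i _ => Finset.sum_congr rfl fun j _ => ?_
      rw [hΘ]
    rw [h4, ← two_mul] at h1
    have h5 := (mul_eq_zero.mp h1).resolve_left h20
    simp only [Finset.mul_sum]
    exact h5
  have hk : ∀ k : Fin 2, ∑ j, qf (Θ k.succ j) t * x j = 0 := by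
    intro k
    obtain ⟨D, hD⟩ := exists_der (E := E) k
    have h1 := hder D
    rw [Fin.sum_univ_three] at h1
    have e0 : D (x 0) = 0 := by
      have : x 0 = 1 := by
        change algebraMap RatK E 1 = 1
        exact map_one _
      rw [this, Derivation.map_one_eq_zero]
    have e1 : D (x 1) = (Pi.single k 1 : Fin 2 → E) 0 := hD 0
    have e2 : D (x 2) = (Pi.single k 1 : Fin 2 → E) 1 := hD 1
    rw [e0, e1, e2] at h1
    fin_cases k
    · simpa using h1
    · simpa using h1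
  have h1 : ∀ i, ∑ j, qf (Θ i j) t * x j = 0 := by
    intro i
    refine Fin.cases ?_ hk i
    have h5 : ∑ i, x i * ∑ j, qf (Θ i j) t * x j = 0 := by
      rw [← hsum]
      simp only [Finset.mul_sum]
      refine Finset.sum_congr rfl fun i _ => Finset.sum_congr rfl fun j _ => ?_
      ring
    rw [Fin.sum_univ_succ] at h5
    have h6 : ∑ i : Fin 2, x i.succ * ∑ j, qf (Θ i.succ j) t * x j = 0 :=
      Finset.sum_eq_zero fun i _ => by rw [hk, mul_zero]
    rw [h6, add_zero] at h5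
    have h7 : x 0 = 1 := by
      change algebraMap RatK E 1 = 1
      exact map_one _
    rwa [h7, one_mul] at h5
  have hs00 : s0 = 0 := by
    have : s0 = c * s1 := by
      rw [hs1, ← mul_assoc, mul_inv_cancel₀ hc, one_mul]
    rw [this, hs10, mul_zero]
  exact ⟨hs00, h3, h1⟩

omit [IsScalarTower ℂ RatK E] in
/-- Outside of the curve `r = 0`, a critical point gives a singular point of the cubic. -/
theorem crit_false (B : Fin 3 → Matrix (Fin 6) (Fin 6) ℂ)
    (hsm : SmoothForm (cubic B)) (N : Matrix (Fin 3) (Fin 4) R3)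
    (Θ : Fin 3 → Fin 3 → Matrix (Fin 3) (Fin 3) ℂ) (hΘ : ∀ i j, Θ i j = Θ j i)
    (e : Fin 4 → R3) (r : R3)
    (h : ∀ v : Fin 4 → R3, pf (QR B) e v ^ 2 - r * qf (QR B) v =
      qf (Matrix.of fun i j => qf (Θ i j) (X : Fin 3 → R3)) (act N v))
    (t : Fin 3 → E) (v : Fin 4 → E) (c : E) (hv0 : v 0 = 1) (ht : t ≠ 0)
    (hF : net B t (wvec t v) = 0)
    (hf : act (N.map (aeval t : R3 →ₐ[ℂ] E)) v = c • fun i => algebraMap RatK E (tvec i))
    (hr : aeval t r ≠ 0)
    (hs : pf ((QR B).map (aeval t : R3 →ₐ[ℂ] E)) (fun i => aeval t (e i)) v = 0)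
    (h3 : ∀ τ : Fin 3 → E, ∑ i, ∑ j, pf (Θ i j) t τ *
        (algebraMap RatK E (tvec i) * algebraMap RatK E (tvec j)) = 0)
    (h1 : ∀ i, ∑ j, qf (Θ i j) t * algebraMap RatK E (tvec j) = 0) : False := by
  have h2 : ∀ j, ∑ i, qf (Θ i j) t * algebraMap RatK E (tvec i) = 0 := by
    intro j
    rw [← h1 j]
    refine Finset.sum_congr rfl fun i _ => ?_
    rw [hΘ]
  have hp := partials_zero B N Θ e r h t _ v c hv0 hF hs hf h1 h2 h3 hr
  have hw := smooth_ext hsm (wvec t v) hp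
  apply ht
  funext k
  have h5 := congrFun hw (Fin.castAdd 3 k)
  have : wvec t v (Fin.castAdd 3 k) = t k := by
    fin_cases k <;> simp [wvec, hv0]
  rw [this] at h5
  exact h5

end

end Vale.Agent.P287.H631
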