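import Vale.Agent.P287.H631.OnCurve
import Vale.Agent.P287.H631.NonRad
import Vale.Agent.P287.Theta.LinChange

/-!
Points of the second quadric surface over non-constant points of the curve, over an arbitrary
extension of `ℂ(s₀, s₁)` to which the coordinate derivations extend.
-/

open MvPolynomial

namespace Vale.Agent.P287.H631

open Vale.Agent.P287

section

variable {E : Type} [Field E] [Algebra ℂ E] [Algebra RatK E] [IsScalarTower ℂ RatK E]

omit [IsScalarTower ℂ RatK E] in
variable (E) in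
/-- The coordinate derivations of `ℂ(s₀, s₁)` extend to `E`. -/
def HasCoordDer : Prop := ∀ k : Fin 2, ∃ D : Derivation ℂ E E, ∀ i : Fin 2,
  D (algebraMap RatK E (algebraMap (MvPolynomial (Fin 2) ℂ) RatK (X i))) =
    (Pi.single k 1 : Fin 2 → E) i

/-- Either the point of the second quadric surface is smooth, or it is critical. -/
theorem point_or_crit' (hder : HasCoordDer E) (Q : Matrix (Fin 4) (Fin 4) R3)
    (N : Matrix (Fin 3) (Fin 4) R3)
    (Θ : Fin 3 → Fin 3 → Matrix (Fin 3) (Fin 3) ℂ) (hΘ : ∀ i j, Θ i j = Θ j i)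
    (e : Fin 4 → R3) (r : R3)
    (h : ∀ v : Fin 4 → R3, pf Q e v ^ 2 - r * qf Q v =
      qf (Matrix.of fun i j => qf (Θ i j) (X : Fin 3 → R3)) (act N v))
    (t : Fin 3 → E) (v : Fin 4 → E) (c : E) (hc : c ≠ 0)
    (hF : aeval t r * qf (Q.map (aeval t : R3 →ₐ[ℂ] E)) v = 0)
    (hf : act (N.map (aeval t : R3 →ₐ[ℂ] E)) v = c • fun i => algebraMap RatK E (tvec i)) :
    (∃ w u : Fin 4 → E, qf (Q2 Θ tvec) w = 0 ∧ pf (Q2 Θ tvec) w u ≠ 0) ∨
    (pf (Q.map (aeval t : R3 →ₐ[ℂ] E)) (fun i => aeval t (e i)) v = 0 ∧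
      (∀ τ : Fin 3 → E, ∑ i, ∑ j, pf (Θ i j) t τ *
        (algebraMap RatK E (tvec i) * algebraMap RatK E (tvec j)) = 0) ∧
      ∀ i, ∑ j, qf (Θ i j) t * algebraMap RatK E (tvec j) = 0) := by
  classical
  set x : Fin 3 → E := fun i => algebraMap RatK E (tvec i) with hx
  set s0 : E := pf (Q.map (aeval t : R3 →ₐ[ℂ] E)) (fun i => aeval t (e i)) v with hs0
  set s1 : E := c⁻¹ * s0 with hs1
  -- the identity at the point
  have key := transport Q N (Matrix.of fun i j => qf (Θ i j) (X : Fin 3 → R3)) e r h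
    ((aeval t : R3 →ₐ[ℂ] E) : R3 →+* E) v
  have hF' : (aeval t : R3 →ₐ[ℂ] E) r * qf (Q.map ((aeval t : R3 →ₐ[ℂ] E) : R3 →+* E)) v = 0 := hF
  replace key : pf (Q.map ((aeval t : R3 →ₐ[ℂ] E) : R3 →+* E)) (fun i => aeval t (e i)) v ^ 2 -
      (aeval t : R3 →ₐ[ℂ] E) r * qf (Q.map ((aeval t : R3 →ₐ[ℂ] E) : R3 →+* E)) v = _ := key
  rw [hF', sub_zero] at key
  have hsq : s0 ^ 2 = c ^ 2 * ∑ i, ∑ j, qf (Θ i j) t * (x i * x j) := by
    have h1 : act (N.map ((aeval t : R3 →ₐ[ℂ] E) : R3 →+* E)) v = c • x := hf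
    rw [h1, qf_smul] at key
    refine key.trans ?_
    congr 1
    simp only [qf, Matrix.map_apply, Matrix.of_apply, Algebra.algebraMap_self,
      RingHom.id_apply]
    refine Finset.sum_congr rfl fun i _ => Finset.sum_congr rfl fun j _ => ?_
    congr 1
    have := map_qf (aeval t : R3 →ₐ[ℂ] E) (Θ i j) (X : Fin 3 → R3)
    simp only [aeval_X] at this
    exact this
  have hsq1 : s1 ^ 2 = ∑ i, ∑ j, qf (Θ i j) t * (x i * x j) := by
    rw [hs1, mul_pow, hsq, ← mul_assoc, ← mul_pow, inv_mul_cancel₀ hc, one_pow, one_mul]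
  have hz : qf (Q2 Θ tvec) (tv t s1) = 0 := by
    rw [qf_Q2, hsq1]
    exact sub_self _
  by_cases hcon : ∃ w u : Fin 4 → E, qf (Q2 Θ tvec) w = 0 ∧ pf (Q2 Θ tvec) w u ≠ 0
  · exact Or.inl hcon
  refine Or.inr ?_
  push Not at hcon
  have hall := fun u => hcon (tv t s1) u hz
  have h20 : (2 : E) ≠ 0 := by
    have : CharZero E := charZero_of_injective_algebraMap (algebraMap ℂ E).injective
    exact two_ne_zero
  have hs10 : s1 = 0 := by
    have h1 := hall (tv 0 1)
    rw [pf_Q2] at h1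
    simp only [pf_zero_right, zero_mul, Finset.sum_const_zero, sub_zero, mul_one] at h1
    exact (mul_eq_zero.mp h1).resolve_left h20
  have h3 : ∀ τ : Fin 3 → E, ∑ i, ∑ j, pf (Θ i j) t τ * (x i * x j) = 0 := by
    intro τ
    have h1 := hall (tv τ 0)
    rw [pf_Q2, mul_zero, zero_sub, neg_eq_zero] at h1
    exact h1
  have hsum : ∑ i, ∑ j, qf (Θ i j) t * (x i * x j) = 0 := by
    rw [← hsq1, hs10]
    ring
  -- the derivatives with respect to `x`
  have hderx : ∀ D : Derivation ℂ E E, ∑ i, D (x i) * ∑ j, qf (Θ i j) t * x j = 0 := by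
    intro D
    have h1 := congrArg D hsum
    rw [map_sum, map_zero] at h1
    have h2 : ∀ i j, D (qf (Θ i j) t * (x i * x j)) = pf (Θ i j) t (fun a => D (t a)) *
        (x i * x j) + (D (x i) * (qf (Θ i j) t * x j) + D (x j) * (qf (Θ i j) t * x i)) := by
      intro i j
      rw [Derivation.leibniz, Derivation.leibniz, derivation_qf]
      simp only [smul_eq_mul]
      ring
    simp only [map_sum, h2, Finset.sum_add_distrib, h3, zero_add] at h1
    have h4 : ∑ i, ∑ j, D (x j) * (qf (Θ i j) t * x i) = ∑ i, ∑ j, D (x i) * (qf (Θ i j) t * x j) := by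
      rw [Finset.sum_comm]
      refine Finset.sum_congr rfl fun i _ => Finset.sum_congr rfl fun j _ => ?_
      rw [hΘ]
    rw [h4, ← two_mul] at h1
    have h5 := (mul_eq_zero.mp h1).resolve_left h20
    simp only [Finset.mul_sum]
    exact h5
  have hk : ∀ k : Fin 2, ∑ j, qf (Θ k.succ j) t * x j = 0 := by
    intro k
    obtain ⟨D, hD⟩ := hder k
    have h1 := hderx D
    rw [Fin.sum_univ_three] at h1
    have e0 : D (x 0) = 0 := by
      have : x 0 = 1 := by
        change algebraMap RatK E 1 = 1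
        exact map_one _
      rw [this, Derivation.map_one_eq_zero]
    have e1 : D (x 1) = (Pi.single k 1 : Fin 2 → E) 0 := hD 0
    have e2 : D (x 2) = (Pi.single k 1 : Fin 2 → E) 1 := hD 1
    rw [e0, e1, e2] at h1
    fin_cases k
    · simpa using h1
    · simpa using h1
  have h1 : ∀ i, ∑ j, qf (Θ i j) t * x j = 0 := by
    intro i
    refine Fin.cases ?_ hk i
    have h5 : ∑ i, x i * ∑ j, qf (Θ i j) t * x j = 0 := by
      rw [← hsum]
      simp only [Finset.mul_sum]
      refine Finset.sum_congr rfl fun i _ => Finset.sum_congr rfl fun j _ => ?_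
      ring
    rw [Fin.sum_univ_succ] at h5
    have h6 : ∑ i : Fin 2, x i.succ * ∑ j, qf (Θ i.succ j) t * x j = 0 :=
      Finset.sum_eq_zero fun i _ => by rw [hk, mul_zero]
    rw [h6, add_zero] at h5
    have h7 : x 0 = 1 := by
      change algebraMap RatK E 1 = 1
      exact map_one _
    rwa [h7, one_mul] at h5
  have hs00 : s0 = 0 := by
    have : s0 = c * s1 := by
      rw [hs1, ← mul_assoc, mul_inv_cancel₀ hc, one_mul]
    rw [this, hs10, mul_zero]
  exact ⟨hs00, h3, h1⟩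

omit [IsScalarTower ℂ RatK E] in
/-- At a critical point over a non-constant point of the curve the matrix `A` has rank at most
one. -/
theorem rank_le_one' (hder : HasCoordDer E) {g : R3} {k : ℕ} (hgp : Prime g)
    (hg : g.IsHomogeneous k) (hk : 0 < k)
    (Θ : Fin 3 → Fin 3 → Matrix (Fin 3) (Fin 3) ℂ) (t : Fin 3 → E)
    (hnc : ¬ ∃ (c : Fin 3 → ℂ) (r : E), t = r • fun i => algebraMap ℂ E (c i))
    (htg : aeval t g = 0) (hA : ∀ i, ∑ j, qf (Θ i j) t * algebraMap RatK E (tvec j) = 0)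
    (i j : Fin 3) (c d : Fin 3) :
    qf (Θ i c) t * qf (Θ j d) t = qf (Θ i d) t * qf (Θ j c) t := by
  classical
  have hchar : CharZero E := charZero_of_injective_algebraMap (algebraMap ℂ E).injective
  -- the gradient of `g` does not vanish
  obtain ⟨i0, hi0⟩ : ∃ i, aeval t (pderiv i g) ≠ 0 := by
    obtain ⟨i0, hi0⟩ : ∃ i, pderiv i g ≠ 0 := by
      by_contra h
      push Not at h
      have h1 := hg.sum_X_mul_pderiv
      simp only [h, mul_zero, Finset.sum_const_zero] at h1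
      have h2 : (k : R3) * g = 0 := by rw [← nsmul_eq_mul]; exact h1.symm
      have h3 : (k : R3) ≠ 0 := by exact_mod_cast hk.ne'
      exact (mul_ne_zero h3 hgp.ne_zero) h2
    refine ⟨i0, fun h0 => hnc ?_⟩
    exact exists_const hgp hg hg.pderiv (not_dvd_of_lt hg hgp.ne_zero hg.pderiv hi0 (by omega))
      t htg h0
  set G : Fin 3 → E := fun i => aeval t (pderiv i g) with hG
  have hG0 : G ≠ 0 := fun h => hi0 (congrFun h i0)
  obtain ⟨D1, hD1⟩ := hder 0
  obtain ⟨D2, hD2⟩ := hder 1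
  have hDg : ∀ D : Derivation ℂ E E, ∑ i, D (t i) * G i = 0 := by
    intro D
    have h1 := der_aeval D t g
    rw [htg, map_zero] at h1
    rw [h1]
    refine Finset.sum_congr rfl fun i _ => mul_comm _ _
  have htG : ∑ i, t i * G i = 0 := by
    have h1 := congrArg (aeval t) hg.sum_X_mul_pderiv
    rw [map_sum, map_nsmul, htg, smul_zero] at h1
    simp only [map_mul, aeval_X] at h1
    exact h1
  -- a relation between `t` and its derivatives
  set M : Matrix (Fin 3) (Fin 3) E := Matrix.of ![t, fun i => D1 (t i), fun i => D2 (t i)] with hM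
  have hMG : M.mulVec G = 0 := by
    funext k
    fin_cases k
    · exact htG
    · exact hDg D1
    · exact hDg D2
  have hdet : M.det = 0 := Matrix.exists_mulVec_eq_zero_iff.mp ⟨G, hG0, hMG⟩
  obtain ⟨w, hw0, hw⟩ := Matrix.exists_vecMul_eq_zero_iff.mpr hdet
  have hwi : ∀ i, w 0 * t i + w 1 * D1 (t i) + w 2 * D2 (t i) = 0 := by
    intro i
    have h1 := congrFun hw i
    simp only [Matrix.vecMul, dotProduct, Fin.sum_univ_three, hM, Matrix.of_apply] at h1
    exact h1
  have ht0 : t ≠ 0 := by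
    intro h
    exact hnc ⟨0, 0, by rw [h, zero_smul]⟩
  have hw12 : w 1 ≠ 0 ∨ w 2 ≠ 0 := by
    by_contra hcon
    push Not at hcon
    obtain ⟨h1, h2⟩ := hcon
    have hw00 : w 0 ≠ 0 := by
      intro h
      apply hw0
      funext k
      fin_cases k
      · exact h
      · exact h1
      · exact h2
    apply ht0
    funext i
    have h3 := hwi i
    rw [h1, h2, zero_mul, zero_mul, add_zero, add_zero] at h3
    exact (mul_eq_zero.mp h3).resolve_left hw00
  let D : Derivation ℂ E E := w 1 • D1 + w 2 • D2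
  have hDt : (fun i => D (t i)) = (-w 0) • t := by
    funext i
    have h1 := hwi i
    change w 1 * D1 (t i) + w 2 * D2 (t i) = -w 0 * t i
    linear_combination h1
  set x : Fin 3 → E := fun i => algebraMap RatK E (tvec i) with hx
  have hx0 : x 0 = 1 := by
    change algebraMap RatK E 1 = 1
    exact map_one _
  have hDx0 : D (x 0) = 0 := by rw [hx0, Derivation.map_one_eq_zero]
  have hDx1 : D (x 1) = w 1 := by
    have h1 : D1 (x 1) = (Pi.single 0 1 : Fin 2 → E) 0 := hD1 0
    have h2 : D2 (x 1) = (Pi.single 1 1 : Fin 2 → E) 0 := hD2 0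
    change w 1 * D1 (x 1) + w 2 * D2 (x 1) = w 1
    rw [h1, h2]
    simp
  have hDx2 : D (x 2) = w 2 := by
    have h1 : D1 (x 2) = (Pi.single 0 1 : Fin 2 → E) 1 := hD1 1
    have h2 : D2 (x 2) = (Pi.single 1 1 : Fin 2 → E) 1 := hD2 1
    change w 1 * D1 (x 2) + w 2 * D2 (x 2) = w 2
    rw [h1, h2]
    simp
  have hA' : ∀ i, qf (Θ i 0) t + qf (Θ i 1) t * x 1 + qf (Θ i 2) t * x 2 = 0 := by
    intro i
    have h1 := hA i
    rw [Fin.sum_univ_three] at h1
    change qf (Θ i 0) t * x 0 + qf (Θ i 1) t * x 1 + qf (Θ i 2) t * x 2 = 0 at h1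
    rwa [hx0, mul_one] at h1
  have hB' : ∀ i, qf (Θ i 1) t * w 1 + qf (Θ i 2) t * w 2 = 0 := by
    intro i
    have h1 := congrArg D (hA i)
    rw [map_sum, map_zero] at h1
    have h2 : ∀ j, D (qf (Θ i j) t * x j) =
        (-w 0) * 2 * (qf (Θ i j) t * x j) + qf (Θ i j) t * D (x j) := by
      intro j
      rw [Derivation.leibniz, derivation_qf, hDt, pf_smul_right, pf_self]
      simp only [smul_eq_mul]
      ring
    change ∑ j, D (qf (Θ i j) t * x j) = 0 at h1
    simp only [h2, Finset.sum_add_distrib, ← Finset.mul_sum] at h1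
    have h3 : ∑ j, qf (Θ i j) t * x j = 0 := hA i
    rw [h3, mul_zero, zero_add, Fin.sum_univ_three, hDx0, hDx1, hDx2, mul_zero, zero_add] at h1
    exact h1
  -- the minors
  have m12 : ∀ i j, qf (Θ i 1) t * qf (Θ j 2) t - qf (Θ i 2) t * qf (Θ j 1) t = 0 := by
    intro i j
    rcases hw12 with h | h
    · have h1 : w 1 * (qf (Θ i 1) t * qf (Θ j 2) t - qf (Θ i 2) t * qf (Θ j 1) t) = 0 := by
        linear_combination qf (Θ j 2) t * hB' i - qf (Θ i 2) t * hB' j
      exact (mul_eq_zero.mp h1).resolve_left h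
    · have h1 : w 2 * (qf (Θ i 1) t * qf (Θ j 2) t - qf (Θ i 2) t * qf (Θ j 1) t) = 0 := by
        linear_combination -qf (Θ j 1) t * hB' i + qf (Θ i 1) t * hB' j
      exact (mul_eq_zero.mp h1).resolve_left h
  have m01 : ∀ i j, qf (Θ i 0) t * qf (Θ j 1) t - qf (Θ i 1) t * qf (Θ j 0) t = 0 := by
    intro i j
    linear_combination qf (Θ j 1) t * hA' i - qf (Θ i 1) t * hA' j + x 2 * m12 i j
  have m02 : ∀ i j, qf (Θ i 0) t * qf (Θ j 2) t - qf (Θ i 2) t * qf (Θ j 0) t = 0 := by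
    intro i j
    linear_combination qf (Θ j 2) t * hA' i - qf (Θ i 2) t * hA' j - x 1 * m12 i j
  have e01 := m01 i j
  have e02 := m02 i j
  have e12 := m12 i j
  fin_cases c <;> fin_cases d
  · ring
  · change qf (Θ i 0) t * qf (Θ j 1) t = qf (Θ i 1) t * qf (Θ j 0) t
    linear_combination e01
  · change qf (Θ i 0) t * qf (Θ j 2) t = qf (Θ i 2) t * qf (Θ j 0) t
    linear_combination e02
  · change qf (Θ i 1) t * qf (Θ j 0) t = qf (Θ i 0) t * qf (Θ j 1) t
    linear_combination -e01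
  · ring
  · change qf (Θ i 1) t * qf (Θ j 2) t = qf (Θ i 2) t * qf (Θ j 1) t
    linear_combination e12
  · change qf (Θ i 2) t * qf (Θ j 0) t = qf (Θ i 0) t * qf (Θ j 2) t
    linear_combination -e02
  · change qf (Θ i 2) t * qf (Θ j 1) t = qf (Θ i 1) t * qf (Θ j 2) t
    linear_combination -e12
  · ring


/-- A non-constant point of the curve, on which the linear forms take a generic value, gives a
smooth point of the second quadric surface. -/
theorem curve_point (hder : HasCoordDer E) (B : Fin 3 → Matrix (Fin 6) (Fin 6) ℂ)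
    (nd : ∀ v : Fin 4 → RatK, (∀ w, pf (qmat B) v w = 0) → v = 0) {m : ℕ} (hm : 2 ≤ m)
    {g : R3} (hgp : Prime g) (hg : g.IsHomogeneous (2 * m + 1))
    (N : Matrix (Fin 3) (Fin 4) R3) (e : Fin 4 → R3) (γ : ℂ) (hγ : γ ≠ 0)
    (Θ : Fin 3 → Fin 3 → Matrix (Fin 3) (Fin 3) ℂ) (hΘ : ∀ i j, Θ i j = Θ j i)
    (hid : ∀ v : Fin 4 → R3, pf (QR B) e v ^ 2 - 4 * C γ * g * qf (QR B) v =
      qf (Matrix.of fun i j => qf (Θ i j) (X : Fin 3 → R3)) (act N v))
    (t : Fin 3 → E)
    (hnc : ¬ ∃ (c : Fin 3 → ℂ) (r : E), t = r • fun i => algebraMap ℂ E (c i))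
    (hgt : aeval t g = 0) (v : Fin 4 → E) (c : E) (hc : c ≠ 0)
    (hf : act (N.map (aeval t : R3 →ₐ[ℂ] E)) v = c • fun i => algebraMap RatK E (tvec i)) :
    ∃ w u : Fin 4 → E, qf (Q2 Θ tvec) w = 0 ∧ pf (Q2 Θ tvec) w u ≠ 0 := by
  have hr : aeval t (4 * C γ * g) = 0 := by rw [map_mul, hgt, mul_zero]
  rcases point_or_crit' hder (QR B) N Θ hΘ e _ hid t v c hc (by rw [hr, zero_mul]) hf with
    h | ⟨_, _, h1⟩
  · exact h
  exfalso
  set A : Matrix (Fin 3) (Fin 3) R3 := Matrix.of fun i j => qf (Θ i j) (X : Fin 3 → R3) with hA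
  have hAh : ∀ i j, (A i j).IsHomogeneous 2 := by
    intro i j
    simp only [hA, Matrix.of_apply, qf]
    refine IsHomogeneous.sum _ _ _ fun k _ => IsHomogeneous.sum _ _ _ fun l _ => ?_
    have h2 := ((isHomogeneous_C (Fin 3) (Θ i j k l)).mul
      ((isHomogeneous_X ℂ k).mul (isHomogeneous_X ℂ l)))
    simpa using h2
  have hAs : ∀ i j, A i j = A j i := fun i j => by
    simp only [hA, Matrix.of_apply]
    rw [hΘ]
  have h4 : ∀ i j, aeval t (A i j) = qf (Θ i j) t := by
    intro i j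
    have := map_qf (aeval t : R3 →ₐ[ℂ] E) (Θ i j) (X : Fin 3 → R3)
    simp only [aeval_X] at this
    exact this
  have hg0 := hgp.ne_zero
  have hmin : ∀ i j c d, A i c * A j d = A i d * A j c := by
    intro i j c d
    by_contra hcon
    apply hnc
    have hhom : (A i c * A j d - A i d * A j c).IsHomogeneous 4 :=
      ((hAh i c).mul (hAh j d)).sub ((hAh i d).mul (hAh j c))
    refine exists_const hgp hg hhom (not_dvd_of_lt hg hg0 hhom (sub_ne_zero.mpr hcon)
      (by omega)) t hgt ?_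
    rw [map_sub, map_mul, map_mul, h4, h4, h4, h4, sub_eq_zero]
    exact rank_le_one' hder hgp hg (by omega) Θ t hnc hgt h1 i j c d
  have hrg : (aeval tvec : R3 →ₐ[ℂ] RatK) (4 * C γ * g) ≠ 0 := by
    rw [map_mul, map_mul, map_ofNat]
    refine mul_ne_zero (mul_ne_zero (OfNat.ofNat_ne_zero 4) ?_) ?_
    · rw [aeval_C]
      simpa using hγ
    · intro h0
      rw [← Theta.crMap_cr] at h0
      apply hg0
      apply Theta.cr_inj hg
      apply Theta.crMap_injective
      rw [h0, map_zero]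
  exact rank_one_false B N A hAs e _ hid hrg hmin nd

end

end Vale.Agent.P287.H631
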