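import Mathlib

/-!
Homogeneous polynomials and scaling.
-/

open MvPolynomial

namespace Vale.Agent.P287.H631

lemma aeval_smul_of_homog {n k : ℕ} {p : MvPolynomial (Fin n) ℂ} (hp : p.IsHomogeneous k)
    {A : Type*} [CommRing A] [Algebra ℂ A] (c : A) (t : Fin n → A) :
    aeval (c • t) p = c ^ k * aeval t p := by
  classical
  conv_lhs => rw [p.as_sum]
  conv_rhs => rw [p.as_sum]
  rw [map_sum, map_sum, Finset.mul_sum]
  refine Finset.sum_congr rfl fun d hd => ?_
  rw [aeval_monomial, aeval_monomial, Finsupp.prod_fintype _ _ (by simp),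
    Finsupp.prod_fintype _ _ (by simp)]
  simp only [Pi.smul_apply, smul_eq_mul, mul_pow, Finset.prod_mul_distrib]
  have h1 : ∏ i, c ^ d i = c ^ k := by
    rw [Finset.prod_pow_eq_pow_sum]
    congr 1
    have := hp (mem_support_iff.mp hd)
    rw [Finsupp.weight_apply, Finsupp.sum_fintype _ _ (by simp)] at this
    simpa using this
  rw [h1]
  ring

lemma homog_of_aeval {n k : ℕ} {p : MvPolynomial (Fin n) ℂ}
    (h : ∀ (c : ℂ) (t : Fin n → ℂ), c ≠ 0 → aeval (c • t) p = c ^ k * aeval t p) :
    p.IsHomogeneous k := by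
  classical
  have h1 : aeval (fun i => C 2 * X i : Fin n → MvPolynomial (Fin n) ℂ) p = C (2 ^ k) * p := by
    apply MvPolynomial.funext
    intro t
    have h2 := h 2 t two_ne_zero
    have h3 : eval t (aeval (fun i => C 2 * X i : Fin n → MvPolynomial (Fin n) ℂ) p) =
        aeval ((2 : ℂ) • t) p := by
      have h4 := MvPolynomial.comp_aeval_apply (R := ℂ)
        (fun i => C 2 * X i : Fin n → MvPolynomial (Fin n) ℂ)
        (aeval t : MvPolynomial (Fin n) ℂ →ₐ[ℂ] ℂ) p
      have h5 : (aeval t : MvPolynomial (Fin n) ℂ →ₐ[ℂ] ℂ)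
          (aeval (fun i => C 2 * X i : Fin n → MvPolynomial (Fin n) ℂ) p) =
          aeval ((2 : ℂ) • t) p := by
        rw [h4]
        congr 2
        funext i
        simp
      rw [← h5, MvPolynomial.aeval_eq_eval]
    rw [h3, h2, map_mul, eval_C, MvPolynomial.aeval_eq_eval]
  intro d hd
  -- compare coefficients
  have h2 : coeff d (aeval (fun i => C 2 * X i : Fin n → MvPolynomial (Fin n) ℂ) p) =
      2 ^ (∑ i, d i) * coeff d p := by
    conv_lhs => rw [p.as_sum]
    rw [map_sum, coeff_sum]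
    have h3 : ∀ d' ∈ p.support, coeff d (aeval (fun i => C 2 * X i :
        Fin n → MvPolynomial (Fin n) ℂ) (monomial d' (coeff d' p))) =
        if d' = d then 2 ^ (∑ i, d i) * coeff d p else 0 := by
      intro d' _
      rw [aeval_monomial, Finsupp.prod_fintype _ _ (by simp)]
      simp only [mul_pow, Finset.prod_mul_distrib]
      have h4 : ∏ i, (X i : MvPolynomial (Fin n) ℂ) ^ d' i = monomial d' 1 := by
        rw [monomial_eq, Finsupp.prod_fintype _ _ (by simp)]
        simp
      have h5 : ∏ i, (C 2 : MvPolynomial (Fin n) ℂ) ^ d' i = C (2 ^ (∑ i, d' i)) := by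
        rw [Finset.prod_pow_eq_pow_sum, map_pow]
      rw [h4, h5, MvPolynomial.algebraMap_eq, ← mul_assoc, ← C_mul, coeff_C_mul, coeff_monomial]
      split_ifs with h6
      · subst h6
        ring
      · ring
    rw [Finset.sum_congr rfl h3, Finset.sum_ite_eq' p.support d]
    rw [if_pos (mem_support_iff.mpr hd)]
  rw [h1, coeff_C_mul] at h2
  have h3 := mul_right_cancel₀ hd h2
  have h4 : k = ∑ i, d i := by
    have h5 : (2 : ℕ) ^ k = 2 ^ (∑ i, d i) := by exact_mod_cast h3
    exact Nat.pow_right_injective le_rfl h5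
  rw [Finsupp.weight_apply, Finsupp.sum_fintype _ _ (by simp), h4]
  simp

end Vale.Agent.P287.H631
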