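import Vale.Agent.P287.H631.Identity
import Vale.Agent.P287.H631.Homog
import Vale.Agent.P287.Smooth

/-!
The family of quadratic forms `q_t (v) = net B t (wvec t v)` over `ℂ[t₀, t₁, t₂]`, and the transport
of polynomial identities to arbitrary points.
-/

open MvPolynomial

namespace Vale.Agent.P287.H631

open Vale.Agent.P287

section maps

variable {R S : Type} [CommRing R] [CommRing S] {n m : ℕ}

lemma map_qf' (φ : R →+* S) (Q : Matrix (Fin n) (Fin n) R) (w : Fin n → R) :
    φ (qf Q w) = qf (Q.map φ) (fun i => φ (w i)) := by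
  simp [qf, map_sum]

lemma map_pf' (φ : R →+* S) (Q : Matrix (Fin n) (Fin n) R) (u w : Fin n → R) :
    φ (pf Q u w) = pf (Q.map φ) (fun i => φ (u i)) (fun i => φ (w i)) := by
  simp [pf, map_sum]

lemma map_act' (φ : R →+* S) (N : Matrix (Fin m) (Fin n) R) (w : Fin n → R) (i : Fin m) :
    φ (act N w i) = act (N.map φ) (fun i => φ (w i)) i := by
  simp [act, map_sum]

variable [IsDomain R] [Infinite R]

/-- Transport of the main identity along a ring homomorphism. -/
theorem transport (Q : Matrix (Fin 4) (Fin 4) R) (N : Matrix (Fin 3) (Fin 4) R)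
    (A : Matrix (Fin 3) (Fin 3) R) (e : Fin 4 → R) (r : R)
    (h : ∀ v : Fin 4 → R, pf Q e v ^ 2 - r * qf Q v = qf A (act N v))
    (φ : R →+* S) (w : Fin 4 → S) :
    pf (Q.map φ) (fun i => φ (e i)) w ^ 2 - φ r * qf (Q.map φ) w =
      qf (A.map φ) (act (N.map φ) w) := by
  let P := MvPolynomial (Fin 4) R
  let c : R →+* P := C
  let x : Fin 4 → P := X
  set D : P := pf (Q.map c) (fun i => c (e i)) x ^ 2 -
    c r * qf (Q.map c) x - qf (A.map c) (act (N.map c) x) with hD
  have key : ∀ {T : Type} [CommRing T] (ψ : P →+* T),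
      ψ D = pf (Q.map (ψ.comp c)) (fun i => ψ (c (e i))) (fun i => ψ (x i)) ^ 2 -
        ψ (c r) * qf (Q.map (ψ.comp c)) (fun i => ψ (x i)) -
        qf (A.map (ψ.comp c)) (act (N.map (ψ.comp c)) (fun i => ψ (x i))) := by
    intro T _ ψ
    rw [hD, map_sub, map_sub, map_pow, map_mul, map_pf', map_qf', map_qf']
    simp only [map_act', Matrix.map_map]
    rfl
  have hD0 : D = 0 := by
    apply MvPolynomial.funext
    intro v
    have h1 := key (eval v)
    have h2 : (eval v : MvPolynomial (Fin 4) R →+* R).comp c = RingHom.id R := by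
      ext x
      simp [c]
    rw [h2] at h1
    have hx : (fun i => (eval v) (x i)) = v := funext fun i => eval_X _
    have hc : ∀ a, (eval v) (c a) = a := fun a => eval_C _
    rw [hx] at h1
    simp only [hc] at h1
    have h3 : ∀ {a b : ℕ} (M : Matrix (Fin a) (Fin b) R), M.map (RingHom.id R) = M := by
      intro a b M
      ext i j
      simp
    rw [h3, h3, h3] at h1
    rw [h1, map_zero]
    have h4 := h v
    exact sub_eq_zero.mpr h4
  have h1 := key (eval₂Hom φ w)
  rw [hD0, map_zero] at h1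
  have h2 : (eval₂Hom φ w).comp c = φ := by
    ext x
    simp [c]
  have hx : (fun i => (eval₂Hom φ w) (x i)) = w := funext fun i => eval₂Hom_X' _ _ _
  have hc : ∀ a, (eval₂Hom φ w) (c a) = φ a := fun a => eval₂Hom_C _ _ _
  rw [h2, hx] at h1
  simp only [hc] at h1
  exact (sub_eq_zero.mp h1.symm)

end maps

/-- The homogeneous coordinate ring of the plane. -/
abbrev R3 : Type := MvPolynomial (Fin 3) ℂ

/-- The matrix over `ℂ[t₀, t₁, t₂]` of the family of quadratic forms. -/
noncomputable def QR (B : Fin 3 → Matrix (Fin 6) (Fin 6) ℂ) : Matrix (Fin 4) (Fin 4) R3 :=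
  fun i j => ∑ k, X k * ∑ a, ∑ b, C (B k a b) *
    ((wvec (X : Fin 3 → R3) (Pi.single i 1) a) * (wvec (X : Fin 3 → R3) (Pi.single j 1) b))

lemma wvec_eq_sum {A : Type*} [CommRing A] (t : Fin 3 → A) (v : Fin 4 → A) (a : Fin 6) :
    wvec t v a = ∑ i, wvec t (Pi.single i 1) a * v i := by
  rw [Fin.sum_univ_four]
  fin_cases a <;> simp [wvec, Pi.single_apply, mul_comm]

lemma qf_QR (B : Fin 3 → Matrix (Fin 6) (Fin 6) ℂ) {A : Type*} [CommRing A] [Algebra ℂ A]
    (t : Fin 3 → A) (v : Fin 4 → A) :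
    qf ((QR B).map (aeval t : R3 →ₐ[ℂ] A)) v = net B t (wvec t v) := by
  have h1 : ∀ i a, (aeval t : R3 →ₐ[ℂ] A) (wvec (X : Fin 3 → R3) (Pi.single i 1) a) =
      wvec t (Pi.single i 1) a := by
    intro i a
    fin_cases i <;> fin_cases a <;> simp [wvec, Pi.single_apply]
  simp only [qf, Matrix.map_apply, QR, map_sum, map_mul, aeval_X, h1, Algebra.algebraMap_self,
    RingHom.id_apply, net]
  simp only [← MvPolynomial.algebraMap_eq, AlgHom.commutes]
  simp only [wvec_eq_sum t v, Finset.sum_mul, Finset.mul_sum]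
  have h2 : ∀ g : Fin 4 → Fin 4 → Fin 3 → Fin 6 → Fin 6 → A,
      ∑ i, ∑ j, ∑ k, ∑ a, ∑ b, g i j k a b = ∑ k, ∑ a, ∑ b, ∑ i, ∑ j, g i j k a b := by
    intro g
    calc ∑ i, ∑ j, ∑ k, ∑ a, ∑ b, g i j k a b
        = ∑ i, ∑ k, ∑ j, ∑ a, ∑ b, g i j k a b := by
          refine Finset.sum_congr rfl fun i _ => Finset.sum_comm
      _ = ∑ k, ∑ i, ∑ j, ∑ a, ∑ b, g i j k a b := Finset.sum_comm
      _ = ∑ k, ∑ i, ∑ a, ∑ j, ∑ b, g i j k a b := by
          refine Finset.sum_congr rfl fun k _ => Finset.sum_congr rfl fun i _ => Finset.sum_comm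
      _ = ∑ k, ∑ a, ∑ i, ∑ j, ∑ b, g i j k a b := by
          refine Finset.sum_congr rfl fun k _ => Finset.sum_comm
      _ = ∑ k, ∑ a, ∑ i, ∑ b, ∑ j, g i j k a b := by
          refine Finset.sum_congr rfl fun k _ => Finset.sum_congr rfl fun a _ =>
            Finset.sum_congr rfl fun i _ => Finset.sum_comm
      _ = ∑ k, ∑ a, ∑ b, ∑ i, ∑ j, g i j k a b := by
          refine Finset.sum_congr rfl fun k _ => Finset.sum_congr rfl fun a _ => Finset.sum_comm
  rw [h2]
  refine Finset.sum_congr rfl fun k _ => Finset.sum_congr rfl fun a _ =>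
    Finset.sum_congr rfl fun b _ => ?_
  rw [Finset.sum_comm]
  refine Finset.sum_congr rfl fun i _ => Finset.sum_congr rfl fun j _ => ?_
  ring

end Vale.Agent.P287.H631
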