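import Vale.Agent.P287.H631.Family
import Vale.Agent.P287.FunctionField

/-!
From the point of the first quadric surface to the double cover.
-/

open MvPolynomial

namespace Vale.Agent.P287.H631

open Vale.Agent.P287

section maps

variable {R S : Type} [CommRing R] [CommRing S]

lemma map_mnr (φ : R →+* S) (N : Matrix (Fin 3) (Fin 4) R) (k : Fin 4) :
    mnr (N.map φ) k = φ (mnr N k) := by
  fin_cases k <;> simp [mnr]

lemma map_lft (φ : R →+* S) (N : Matrix (Fin 3) (Fin 4) R) (c : Fin 4) (i : Fin 4) (j : Fin 3) :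
    lft (N.map φ) c i j = φ (lft N c i j) := by
  fin_cases c <;> fin_cases i <;> fin_cases j <;> simp [lft, mnr2]

end maps

section

variable {E : Type} [Field E] [Algebra ℂ E] [Algebra RatK E] [IsScalarTower ℂ RatK E]

/-- The function field is generated by a solution of `s ^ 2 = Θ (x, t)`. -/
theorem exists_double (B : Fin 3 → Matrix (Fin 6) (Fin 6) ℂ) (N : Matrix (Fin 3) (Fin 4) R3)
    (Θ : Fin 3 → Fin 3 → Matrix (Fin 3) (Fin 3) ℂ) (e : Fin 4 → R3) (g : R3) (γ : ℂ) (hγ : γ ≠ 0)
    (h : ∀ v : Fin 4 → R3, pf (QR B) e v ^ 2 - 4 * C γ * g * qf (QR B) v =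
      qf (Matrix.of fun i j => qf (Θ i j) (X : Fin 3 → R3)) (act N v))
    (he : ∀ k, mnr N k = g * e k) (hqe : qf (QR B) e = C γ * g)
    (k0 : Fin 4) (hk0 : aeval tvec (mnr N k0) ≠ 0)
    {η : Fin 4 → E} (H : QuadricPoint RatK E tvec (qmat B) η) :
    ∃ (t x : Fin 3 → E) (s : E), t 0 = 1 ∧ x 0 = 1 ∧
      (∀ F : IntermediateField ℂ E, (∀ i, t i ∈ F) → (∀ i, x i ∈ F) → s ∈ F → F = ⊤) ∧
      s ^ 2 = ∑ i, ∑ j, qf (Θ i j) t * (x i * x j) := by
  classical
  set tE : Fin 3 → E := fun i => algebraMap RatK E (tvec i) with htE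
  set ψ : R3 →ₐ[ℂ] E := aeval tE with hψ
  set ψr : R3 →+* E := (ψ : R3 →+* E) with hψr
  have hψφ : ∀ p, ψr p = algebraMap RatK E (aeval tvec p) := by
    intro p
    have h1 : ψ = (IsScalarTower.toAlgHom ℂ RatK E).comp (aeval tvec) := by
      apply MvPolynomial.algHom_ext
      intro i
      simp [ψ, tE]
    change ψ p = _
    rw [h1]
    rfl
  set NE := N.map ψr with hNE
  set QE := (QR B).map ψr with hQE
  set eE : Fin 4 → E := fun i => ψr (e i) with heE
  set y := act NE η with hy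
  set s0 := pf QE eE η with hs0
  have hm0 : mnr NE k0 ≠ 0 := by
    rw [map_mnr, hψφ]
    exact (map_ne_zero _).mpr hk0
  have hg0 : ψr g ≠ 0 := by
    intro h0
    apply hm0
    rw [map_mnr, he, map_mul, h0, zero_mul]
  -- the identity at the point
  have key := transport (QR B) N (Matrix.of fun i j => qf (Θ i j) (X : Fin 3 → R3)) e
    (4 * C γ * g) h ψr η
  have hq : qf QE η = 0 := by
    have h1 : qf QE η = net B tE (wvec tE η) := qf_QR B tE η
    rw [h1, ← qf_qmat B η]
    exact H.hq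
  have hid : s0 ^ 2 = ∑ i, ∑ j, qf (Θ i j) tE * (y i * y j) := by
    have h1 : s0 ^ 2 = qf ((Matrix.of fun i j => qf (Θ i j) (X : Fin 3 → R3)).map ψr) y := by
      rw [← key]
      change s0 ^ 2 = s0 ^ 2 - ψr (4 * C γ * g) * qf QE η
      rw [hq, mul_zero, sub_zero]
    rw [h1]
    simp only [qf, Matrix.map_apply, Matrix.of_apply, Algebra.algebraMap_self,
      RingHom.id_apply]
    refine Finset.sum_congr rfl fun i _ => Finset.sum_congr rfl fun j _ => ?_
    congr 1
    have := map_qf ψ (Θ i j) (X : Fin 3 → R3)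
    simp only [ψ, aeval_X] at this
    exact this
  -- the first coordinate is different from zero
  have hy0 : y 0 ≠ 0 := by
    intro h0
    have h1 : ∑ i, algebraMap RatK E (aeval tvec (N 0 i)) * η i = 0 := by
      rw [← h0]
      simp only [y, act, NE, Matrix.map_apply, Algebra.algebraMap_self, RingHom.id_apply, hψφ]
    have h2 := H.LI _ h1
    have h3 : ∀ i, (N.map (aeval tvec : R3 →ₐ[ℂ] RatK)) 0 i = 0 := fun i => congrFun h2 i
    apply hk0
    have h4 := map_mnr ((aeval tvec : R3 →ₐ[ℂ] RatK) : R3 →+* RatK) N k0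
    have h5 : mnr (N.map ((aeval tvec : R3 →ₐ[ℂ] RatK) : R3 →+* RatK)) k0 = 0 := by
      have h6 : ∀ i, (N.map ((aeval tvec : R3 →ₐ[ℂ] RatK) : R3 →+* RatK)) 0 i = 0 := h3
      fin_cases k0 <;> simp only [mnr, Matrix.cons_val_zero, Matrix.cons_val_one, Matrix.cons_val,
        Fin.zero_eta, Fin.mk_one, Fin.reduceFinMk, h6] <;> ring
    rw [h5] at h4
    exact h4.symm
  refine ⟨tE, fun i => (y 0)⁻¹ * y i, (y 0)⁻¹ * s0, ?_, inv_mul_cancel₀ hy0, ?_, ?_⟩
  · change algebraMap RatK E (tvec 0) = 1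
    rw [H.t0, map_one]
  · intro F hFt hFx hFs
    have hFK := H.hK F hFt
    refine H.eq_top F hFK (y 0)⁻¹ (inv_ne_zero hy0) ?_
    set η' : Fin 4 → E := (y 0)⁻¹ • η with hη'
    have hFψ : ∀ p, ψr p ∈ F := fun p => by rw [hψφ]; exact hFK _
    have hact : act NE η' = fun i => (y 0)⁻¹ * y i := by
      rw [hη', act_smul]
      rfl
    have hlF : ∀ i, act (lft NE k0) (act NE η') i ∈ F := by
      intro i
      rw [hact]
      refine F.sum_mem fun j _ => ?_
      refine F.mul_mem ?_ (hFx j)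
      rw [Algebra.algebraMap_self, RingHom.id_apply, map_lft]
      exact hFψ _
    have hQF : ∀ u w : Fin 4 → E, (∀ i, u i ∈ F) → (∀ i, w i ∈ F) → pf QE u w ∈ F := by
      intro u w hu hw
      refine F.sum_mem fun i _ => F.sum_mem fun j _ => ?_
      refine F.mul_mem ?_ (F.add_mem (F.mul_mem (hu i) (hw j)) (F.mul_mem (hw i) (hu j)))
      rw [Algebra.algebraMap_self, RingHom.id_apply]
      exact hFψ _
    have hmnr : mnr NE = ψr g • eE := by
      funext k
      rw [map_mnr, he, map_mul]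
      rfl
    have hqeE : qf QE eE = algebraMap ℂ E γ * ψr g := by
      have h1 := map_qf' ψr (QR B) e
      rw [hqe, map_mul] at h1
      have h2 : ψr (C γ) = algebraMap ℂ E γ := by
        change ψ (C γ) = _
        rw [← MvPolynomial.algebraMap_eq]
        exact ψ.commutes γ
      rw [h2] at h1
      exact h1.symm
    have h1 := lft_act NE k0 η'
    have h2 : pf QE eE (act (lft NE k0) (act NE η')) =
        mnr NE k0 * ((y 0)⁻¹ * s0) - η' k0 * (2 * algebraMap ℂ E γ * ψr g ^ 2) := by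
      rw [h1]
      have h3 : mnr NE k0 • η' - η' k0 • mnr NE = mnr NE k0 • η' + (-η' k0) • mnr NE := by
        funext i
        simp only [Pi.sub_apply, Pi.smul_apply, smul_eq_mul, Pi.add_apply]
        ring
      have h8 : pf QE eE η' = (y 0)⁻¹ * s0 := pf_smul_right QE (y 0)⁻¹ eE η
      have h9 : pf QE eE (mnr NE) = 2 * algebraMap ℂ E γ * ψr g ^ 2 := by
        rw [hmnr, pf_smul_right, pf_self, hqeE]
        ring
      rw [h3, pf_add_right, pf_smul_right QE (mnr NE k0) eE η',
        pf_smul_right QE (-η' k0) eE (mnr NE), h8, h9]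
      ring
    have h4 : (2 * algebraMap ℂ E γ * ψr g ^ 2) ≠ 0 := by
      have : CharZero E := charZero_of_injective_algebraMap (algebraMap ℂ E).injective
      refine mul_ne_zero (mul_ne_zero two_ne_zero ?_) (pow_ne_zero 2 hg0)
      simpa using hγ
    have h5 : η' k0 ∈ F := by
      have h6 : η' k0 = (mnr NE k0 * ((y 0)⁻¹ * s0) - pf QE eE (act (lft NE k0) (act NE η'))) /
          (2 * algebraMap ℂ E γ * ψr g ^ 2) := by
        rw [eq_div_iff h4, h2]
        ring
      rw [h6]
      refine F.div_mem (F.sub_mem (F.mul_mem ?_ hFs) (hQF _ _ (fun i => hFψ _) hlF)) ?_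
      · rw [map_mnr]; exact hFψ _
      · exact F.mul_mem (F.mul_mem (by
          have := F.algebraMap_mem (2 : ℂ)
          rwa [map_ofNat] at this) (F.algebraMap_mem γ)) (pow_mem (hFψ g) 2)
    intro i
    change η' i ∈ F
    have h7 : η' i = (act (lft NE k0) (act NE η') i + η' k0 * mnr NE i) / mnr NE k0 := by
      rw [eq_div_iff hm0, h1]
      simp only [Pi.sub_apply, Pi.smul_apply, smul_eq_mul]
      ring
    rw [h7]
    refine F.div_mem (F.add_mem (hlF i) (F.mul_mem h5 ?_)) ?_
    · rw [map_mnr]; exact hFψ _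
    · rw [map_mnr]; exact hFψ _
  · rw [mul_pow, hid, Finset.mul_sum]
    refine Finset.sum_congr rfl fun i _ => ?_
    rw [Finset.mul_sum]
    refine Finset.sum_congr rfl fun j _ => ?_
    ring

end

end Vale.Agent.P287.H631
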