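import Vale.Agent.P287.H631.Minors

/-!
The key identity: `pf Q e v ^ 2 - 4 γ g (qf Q v) = qf A (N v)`.
-/

set_option linter.unusedSectionVars false

namespace Vale.Agent.P287.H631

open Vale.Agent.P287 Matrix

section ufd

variable {R : Type*} [CommRing R] [IsDomain R] [UniqueFactorizationMonoid R]

lemma ufd_dvd {ι : Type*} (b : ι → R) (hb : ∀ p, Prime p → ∃ i, ¬ p ∣ b i) (a : R) (ha : a ≠ 0) :
    ∀ P : R, (∀ i, a ∣ b i * P) → a ∣ P := by
  induction a using UniqueFactorizationMonoid.induction_on_prime with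
  | h₁ => exact absurd rfl ha
  | h₂ x hx => exact fun P _ => hx.dvd
  | h₃ a p ha0 hp ih =>
    intro P hP
    obtain ⟨i, hi⟩ := hb p hp
    have h1 : p ∣ P := by
      have := (dvd_mul_right p a).trans (hP i)
      exact (hp.dvd_mul.mp this).resolve_left hi
    obtain ⟨P', rfl⟩ := h1
    refine mul_dvd_mul_left p (ih ha0 P' fun i => ?_)
    have := hP i
    have h2 : b i * (p * P') = p * (b i * P') := by ring
    rw [h2] at this
    exact (mul_dvd_mul_iff_left hp.ne_zero).mp this

end ufd

section linear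

variable {κ : Type*} [Field κ]

/-- Linear functionals (rows) vanishing on a subspace of dimension at least three of `κ⁴` have
vanishing `2 × 2` minors. -/
lemma minors_eq_zero (U : Submodule κ (Fin 4 → κ)) (hU : 3 ≤ Module.finrank κ U)
    (α β : Fin 4 → κ) (hα : ∀ u ∈ U, ∑ i, α i * u i = 0) (hβ : ∀ u ∈ U, ∑ i, β i * u i = 0)
    (a b : Fin 4) : α a * β b - α b * β a = 0 := by
  classical
  by_contra hne
  -- the map (α, β)
  let f : (Fin 4 → κ) →ₗ[κ] (Fin 2 → κ) :=
    LinearMap.pi ![∑ i, α i • LinearMap.proj i, ∑ i, β i • LinearMap.proj i]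
  have hf0 : ∀ u, f u 0 = ∑ i, α i * u i := by
    intro u
    simp [f]
  have hf1 : ∀ u, f u 1 = ∑ i, β i * u i := by
    intro u
    simp [f]
  have hker : U ≤ LinearMap.ker f := by
    intro u hu
    rw [LinearMap.mem_ker]
    funext i
    fin_cases i
    · exact (hf0 u).trans (hα u hu)
    · exact (hf1 u).trans (hβ u hu)
  have hsurj : Function.Surjective f := by
    intro y
    set D := α a * β b - α b * β a with hD
    refine ⟨((y 0 * β b - y 1 * α b) / D) • Pi.single a 1 +
      ((y 1 * α a - y 0 * β a) / D) • Pi.single b 1, ?_⟩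
    have hs : ∀ (c : Fin 4 → κ) (j : Fin 4), ∑ i, c i * (Pi.single j (1 : κ) : Fin 4 → κ) i = c j := by
      intro c j
      rw [Finset.sum_eq_single j]
      · simp
      · intro b _ hb; simp [Pi.single_eq_of_ne hb]
      · simp
    funext i
    rw [map_add, map_smul, map_smul]
    fin_cases i
    · change _ * f _ 0 + _ * f _ 0 = _
      rw [hf0, hf0, hs, hs]
      simp only [Fin.zero_eta]
      field_simp
      rw [hD]; ring
    · change _ * f _ 1 + _ * f _ 1 = _
      rw [hf1, hf1, hs, hs]
      simp only [Fin.mk_one]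
      field_simp
      rw [hD]; ring
  have h1 := LinearMap.finrank_range_add_finrank_ker f
  rw [LinearMap.range_eq_top.mpr hsurj, finrank_top] at h1
  have h2 := Submodule.finrank_mono hker
  simp at h1
  omega

end linear

section pull

variable {R : Type*} [CommRing R] {m n : ℕ}

lemma qf_act (Q : Matrix (Fin m) (Fin m) R) (L : Matrix (Fin m) (Fin n) R) (x : Fin n → R) :
    qf Q (act L x) = qf (Lᵀ * Q * L) x := by
  rw [act_self]
  have h : ∀ {l : ℕ} (T : Matrix (Fin l) (Fin l) R) (y : Fin l → R), qf T y = y ⬝ᵥ T.mulVec y := by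
    intro l T y
    simp only [qf, dotProduct, Matrix.mulVec, Algebra.algebraMap_self, RingHom.id_apply,
      Finset.mul_sum]
    refine Finset.sum_congr rfl fun i _ => Finset.sum_congr rfl fun j _ => ?_
    ring
  rw [h, h, ← Matrix.mulVec_mulVec, ← Matrix.mulVec_mulVec, Matrix.dotProduct_mulVec x Lᵀ,
    Matrix.vecMul_transpose]

lemma pf_act (Q : Matrix (Fin m) (Fin m) R) (L : Matrix (Fin m) (Fin n) R) (e : Fin m → R)
    (x : Fin n → R) :
    pf Q e (act L x) = ∑ j, (∑ i, pf Q e (Pi.single i 1) * L i j) * x j := by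
  rw [pf_eq_sum]
  simp only [act, Algebra.algebraMap_self, RingHom.id_apply, Finset.mul_sum, Finset.sum_mul]
  rw [Finset.sum_comm]
  refine Finset.sum_congr rfl fun i _ => Finset.sum_congr rfl fun j _ => ?_
  ring

/-- The pullback of `(pf Q e v) ^ 2 - r * qf Q v` by a matrix. -/
lemma exists_pull (Q : Matrix (Fin m) (Fin m) R) (L : Matrix (Fin m) (Fin n) R) (e : Fin m → R)
    (r : R) : ∃ S : Matrix (Fin n) (Fin n) R, ∀ x : Fin n → R,
      qf S x = pf Q e (act L x) ^ 2 - r * qf Q (act L x) := by
  refine ⟨fun i j => (∑ k, pf Q e (Pi.single k 1) * L k i) * (∑ k, pf Q e (Pi.single k 1) * L k j) -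
    r * (Lᵀ * Q * L) i j, fun x => ?_⟩
  rw [qf_act, pf_act, sq, Finset.sum_mul_sum]
  simp only [qf, Algebra.algebraMap_self, RingHom.id_apply, sub_mul, Finset.sum_sub_distrib]
  congr 1
  · refine Finset.sum_congr rfl fun i _ => Finset.sum_congr rfl fun j _ => ?_
    ring
  · rw [Finset.mul_sum]
    refine Finset.sum_congr rfl fun i _ => ?_
    rw [Finset.mul_sum]
    refine Finset.sum_congr rfl fun j _ => ?_
    ring

end pull

section main

variable {R : Type} [CommRing R] [IsDomain R] [UniqueFactorizationMonoid R]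

/-- If `r` divides all the values of a quadratic form in three variables then it divides the form,
and the quotient can be given by a symmetric matrix. -/
lemma exists_div {n : ℕ} (h2 : IsUnit (2 : R)) (S : Matrix (Fin n) (Fin n) R) (r : R)
    (h : ∀ x : Fin n → R, r ∣ qf S x) :
    ∃ A : Matrix (Fin n) (Fin n) R, (∀ i j, A i j = A j i) ∧ ∀ x : Fin n → R, r * qf A x = qf S x := by
  classical
  have hp : ∀ x y : Fin n → R, r ∣ pf S x y := by
    intro x y
    have h1 : pf S x y = qf S (x + y) - qf S x - qf S y := by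
      rw [qf_add]; ring
    rw [h1]
    exact dvd_sub (dvd_sub (h _) (h _)) (h _)
  obtain ⟨t, ht⟩ := h2.exists_right_inv
  have hS : ∀ i j, r ∣ S i j + S j i := by
    intro i j
    have h1 := hp (Pi.single i 1) (Pi.single j 1)
    have h3 : pf S (Pi.single i 1) (Pi.single j 1) = S i j + S j i := by
      simp only [pf, Algebra.algebraMap_self, RingHom.id_apply, mul_add, Finset.sum_add_distrib]
      congr 1
      · rw [Finset.sum_eq_single i, Finset.sum_eq_single j]
        · simp
        · intro b _ hb; simp [Pi.single_eq_of_ne hb]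
        · simp
        · intro b _ hb; simp [Pi.single_eq_of_ne hb]
        · simp
      · rw [Finset.sum_eq_single j, Finset.sum_eq_single i]
        · simp
        · intro b _ hb; simp [Pi.single_eq_of_ne hb]
        · simp
        · intro b _ hb; simp [Pi.single_eq_of_ne hb]
        · simp
    rwa [h3] at h1
  choose A' hA' using hS
  by_cases hr : r = 0
  · refine ⟨0, by simp, fun x => ?_⟩
    have := h x
    rw [hr, zero_dvd_iff] at this
    rw [this, hr, zero_mul]
  refine ⟨fun i j => t * A' i j, ?_, ?_⟩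
  · intro i j
    have : r * A' i j = r * A' j i := by rw [← hA' i j, ← hA' j i, add_comm]
    change t * A' i j = t * A' j i
    rw [mul_left_cancel₀ hr this]
  · intro x
    have h1 : 2 * (r * qf (fun i j => t * A' i j : Matrix (Fin n) (Fin n) R) x) = 2 * qf S x := by
      have h4 : 2 * (r * qf (fun i j => t * A' i j : Matrix (Fin n) (Fin n) R) x) =
          (2 * t) * ∑ i, ∑ j, (r * A' i j) * (x i * x j) := by
        simp only [qf, Algebra.algebraMap_self, RingHom.id_apply, Finset.mul_sum]
        refine Finset.sum_congr rfl fun i _ => Finset.sum_congr rfl fun j _ => ?_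
        ring
      rw [h4, ht, one_mul]
      simp only [← hA', add_mul, Finset.sum_add_distrib]
      rw [two_mul]
      congr 1
      rw [Finset.sum_comm]
      simp only [qf, Algebra.algebraMap_self, RingHom.id_apply]
      refine Finset.sum_congr rfl fun i _ => Finset.sum_congr rfl fun j _ => ?_
      ring
    exact mul_left_cancel₀ (h2.ne_zero) h1

/-- The data of a ruled surface over the curve `g = 0` (with function field inside `κ`) on which
three linear functionals vanish. -/
structure ScrollData (Q : Matrix (Fin 4) (Fin 4) R) (N : Matrix (Fin 3) (Fin 4) R) (g : R)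
    (κ : Type) [Field κ] [Algebra R κ] (W : Submodule κ (Fin 4 → κ)) : Prop where
  hg : Prime g
  hκ : ∀ r : R, algebraMap R κ r = 0 ↔ g ∣ r
  hW : Module.finrank κ W = 2
  hq : ∀ w ∈ W, qf Q w = 0
  hN : ∀ w ∈ W, act N w = 0

variable {Q : Matrix (Fin 4) (Fin 4) R} {N : Matrix (Fin 3) (Fin 4) R} {g : R}
    {κ : Type} [Field κ] [Algebra R κ] {W : Submodule κ (Fin 4 → κ)}

/-- The maximal minors are divisible by `g`. -/
lemma ScrollData.dvd_mnr (H : ScrollData Q N g κ W) (c : Fin 4) : g ∣ mnr N c := by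
  classical
  rw [← H.hκ]
  -- a nonzero element of `W` with vanishing coordinate `c`
  obtain ⟨w, hwW, hw0, hwc⟩ : ∃ w ∈ W, w ≠ 0 ∧ w c = 0 := by
    let f : W →ₗ[κ] κ := (LinearMap.proj c).comp W.subtype
    have h1 := LinearMap.finrank_range_add_finrank_ker f
    have h2 : Module.finrank κ (LinearMap.range f) ≤ 1 := by
      have := Submodule.finrank_le (LinearMap.range f)
      simpa using this
    rw [H.hW] at h1
    have h3 : LinearMap.ker f ≠ ⊥ := by
      intro h
      rw [h, finrank_bot] at h1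
      omega
    obtain ⟨w, hw, hne⟩ := Submodule.exists_mem_ne_zero_of_ne_bot h3
    refine ⟨w.1, w.2, ?_, ?_⟩
    · intro h
      apply hne
      exact Subtype.ext h
    · exact hw
  have h1 := H.hN w hwW
  -- apply the lift
  have h2 : ∀ i, algebraMap R κ (mnr N c) * w i = 0 := by
    intro i
    have h3 : act (lft N c) (act N w) i = algebraMap R κ (mnr N c) * w i -
        w c * algebraMap R κ (mnr N i) := by
      fin_cases c <;> fin_cases i <;>
        simp [act, lft, mnr, mnr2, Fin.sum_univ_four, Fin.sum_univ_three] <;> ring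
    rw [h1, hwc, zero_mul, sub_zero] at h3
    rw [← h3]
    simp [act]
  obtain ⟨i, hi⟩ : ∃ i, w i ≠ 0 := by
    by_contra h
    push Not at h
    exact hw0 (funext h)
  exact (mul_eq_zero.mp (h2 i)).resolve_right hi

/-- If the kernel modulo `g` is larger than `W`, all the maximal minors are divisible by `g ^ 2`. -/
lemma ScrollData.ker_le (H : ScrollData Q N g κ W) (hne : ∃ c, ¬ g ^ 2 ∣ mnr N c)
    (v : Fin 4 → κ) (hv : act N v = 0) : v ∈ W := by
  classical
  by_contra hvW
  obtain ⟨c, hc⟩ := hne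
  apply hc
  let U : Submodule κ (Fin 4 → κ) := W ⊔ Submodule.span κ {v}
  have hU : 3 ≤ Module.finrank κ U := by
    have h1 : W < U := by
      refine lt_of_le_of_ne le_sup_left ?_
      intro h
      apply hvW
      rw [h]
      exact Submodule.mem_sup_right (Submodule.mem_span_singleton_self v)
    have := Submodule.finrank_lt_finrank_of_lt h1
    rw [H.hW] at this
    exact this
  have hUN : ∀ u ∈ U, act N u = 0 := by
    intro u hu
    obtain ⟨w, hw, z, hz, rfl⟩ := Submodule.mem_sup.mp hu
    obtain ⟨a, rfl⟩ := Submodule.mem_span_singleton.mp hz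
    rw [act_add, act_smul, H.hN w hw, hv, smul_zero, add_zero]
  have hm : ∀ i j a b, g ∣ mnr2 N i j a b := by
    intro i j a b
    rw [← H.hκ]
    have h3 : ∀ i, ∀ u ∈ U, ∑ j, algebraMap R κ (N i j) * u j = 0 := fun i u hu =>
      congrFun (hUN u hu) i
    have h4 := minors_eq_zero U hU (fun j => algebraMap R κ (N i j))
      (fun k => algebraMap R κ (N j k)) (h3 i) (h3 j) a b
    simp only [mnr2, map_sub, map_mul]
    exact h4
  -- the determinant of the adjugate
  have key : g ^ 3 ∣ mnr N c ^ 2 := by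
    have h5 : ∀ i j, ∃ x, lft3 N c i j = g * x := fun i j => lft3_dvd N g hm c i j
    choose A hA using h5
    have h6 : lft3 N c = g • Matrix.of A := by
      ext i j
      exact hA i j
    have h7 : (lft3 N c).det = g ^ 3 * (Matrix.det (Matrix.of A)) := by
      rw [h6, Matrix.det_smul, Fintype.card_fin]
    have h8 : g ^ 3 ∣ (lft3 N c).det := ⟨_, h7⟩
    rcases det_lft3 N c with h | h
    · rw [← h]; exact h8
    · rw [← dvd_neg, ← h]; exact h8
  have h5 := key
  -- multiplicities
  have h6 : g ∣ mnr N c := H.dvd_mnr c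
  obtain ⟨x, hx⟩ := h6
  rw [hx] at h5 ⊢
  have h7 : g ∣ x ^ 2 := by
    have : g ^ 2 * g ∣ g ^ 2 * x ^ 2 := by
      have h8 : (g * x) ^ 2 = g ^ 2 * x ^ 2 := by ring
      rw [← h8]
      have h9 : g ^ 2 * g = g ^ 3 := by ring
      rw [h9]
      exact h5
    exact (mul_dvd_mul_iff_left (pow_ne_zero 2 H.hg.ne_zero)).mp this
  have h8 : g ∣ x := H.hg.dvd_of_dvd_pow h7
  rw [sq]
  exact mul_dvd_mul_left g h8

/-- The main identity. -/
theorem ScrollData.identity (H : ScrollData Q N g κ W) (h2 : IsUnit (2 : R))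
    (hne : ∃ c, ¬ g ^ 2 ∣ mnr N c) (e : Fin 4 → R) (he : ∀ c, mnr N c = g * e c)
    (γ : R) (hγ : IsUnit γ) (hqe : qf Q e = γ * g) :
    ∃ A : Matrix (Fin 3) (Fin 3) R, (∀ i j, A i j = A j i) ∧
      ∀ v : Fin 4 → R, pf Q e v ^ 2 - 4 * γ * g * qf Q v = qf A (act N v) := by
  classical
  have hg0 : g ≠ 0 := H.hg.ne_zero
  -- `e` reduces into `W`
  have hmnr : mnr N = g • e := by
    funext c
    exact he c
  have heN : act N e = 0 := by
    have h1 := act_mnr N
    rw [hmnr, act_smul] at h1
    exact (smul_eq_zero.mp h1).resolve_left hg0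
  have hmapact : ∀ v : Fin 4 → R, act N (fun i => algebraMap R κ (v i)) =
      fun i => algebraMap R κ (act N v i) := by
    intro v
    have := map_act (Algebra.ofId R κ) N v
    exact this.symm
  have heW : (fun i => algebraMap R κ (e i)) ∈ W := by
    apply H.ker_le hne
    rw [hmapact, heN]
    funext i
    simp
  -- primitivity of `e`
  have hprim : ∀ p, Prime p → ∃ i, ¬ p ∣ e i := by
    intro p hp
    by_contra hcon
    push Not at hcon
    choose x hx using hcon
    have h1 : qf Q e = p ^ 2 * qf Q x := by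
      have : e = p • x := funext hx
      rw [this, qf_smul]
    have h3 : p ^ 2 ∣ g := by
      have h4 : p ^ 2 ∣ γ * g := ⟨_, by rw [← hqe, h1]⟩
      exact (hγ.dvd_mul_left).mp h4
    have h4 : p ∣ g := (dvd_pow_self p two_ne_zero).trans h3
    have h5 : Associated p g := hp.associated_of_dvd H.hg h4
    obtain ⟨y, hy⟩ := h3
    have h6 : g ∣ p := h5.symm.dvd
    obtain ⟨z, hz⟩ := h6
    have h7 : p * 1 = p * (z * y * p) := by
      rw [mul_one]
      calc p = g * z := hz
        _ = p ^ 2 * y * z := by rw [hy]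
        _ = p * (z * y * p) := by ring
    have h8 := mul_left_cancel₀ hp.ne_zero h7
    exact hp.not_isUnit (IsUnit.of_mul_eq_one (z * y) (by rw [mul_comm]; exact h8.symm))
  have hprim2 : ∀ p, Prime p → ∃ i, ¬ p ∣ e i ^ 2 := by
    intro p hp
    obtain ⟨i, hi⟩ := hprim p hp
    exact ⟨i, fun h => hi (hp.dvd_of_dvd_pow h)⟩
  -- the modified form
  let q' : (Fin 4 → R) → R := fun v => pf Q e v ^ 2 - 4 * γ * g * qf Q v
  have hq'smul : ∀ (c : R) v, q' (c • v) = c ^ 2 * q' v := by
    intro c v
    simp only [q', pf_smul_right, qf_smul]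
    ring
  have hq'inv : ∀ (c : R) v, q' (v + c • e) = q' v := by
    intro c v
    simp only [q', pf_add_right, pf_smul_right, pf_self, qf_add, qf_smul, hqe, pf_comm Q v e]
    ring
  -- pullbacks
  choose S hS' using fun c => exists_pull Q (lft N c) e (4 * γ * g)
  have hS : ∀ c (x : Fin 3 → R), qf (S c) x = q' (act (lft N c) x) := fun c x => hS' c x
  -- divisibility by `g ^ 2`
  have hW : ∀ c (x : Fin 3 → R), (fun i => algebraMap R κ (act (lft N c) x i)) ∈ W := by
    intro c x
    apply H.ker_le hne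
    rw [hmapact, act_lft]
    funext i
    simp only [Pi.smul_apply, smul_eq_mul, map_mul, Pi.zero_apply]
    rw [(H.hκ _).mpr (H.dvd_mnr c), zero_mul]
  have hpfW : ∀ w ∈ W, ∀ w' ∈ W, pf Q w w' = 0 := by
    intro w hw w' hw'
    have h1 := H.hq (w + w') (W.add_mem hw hw')
    rw [qf_add, H.hq w hw, H.hq w' hw'] at h1
    simpa using h1
  have hdiv : ∀ c (x : Fin 3 → R), g ^ 2 ∣ qf (S c) x := by
    intro c x
    rw [hS]
    have h1 : g ∣ pf Q e (act (lft N c) x) := by
      rw [← H.hκ]
      have h3 := map_pf (Algebra.ofId R κ) Q e (act (lft N c) x)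
      have h4 : pf Q (fun i => Algebra.ofId R κ (e i))
          (fun i => Algebra.ofId R κ (act (lft N c) x i)) = 0 := hpfW _ heW _ (hW c x)
      rw [h4] at h3
      exact h3
    have h3 : g ∣ qf Q (act (lft N c) x) := by
      rw [← H.hκ]
      have h3 := map_qf (Algebra.ofId R κ) Q (act (lft N c) x)
      have h4 : qf Q (fun i => Algebra.ofId R κ (act (lft N c) x i)) = 0 := H.hq _ (hW c x)
      rw [h4] at h3
      exact h3
    simp only [q']
    apply dvd_sub
    · exact pow_dvd_pow_of_dvd h1 2
    · obtain ⟨y, hy⟩ := h3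
      exact ⟨4 * γ * y, by rw [hy]; ring⟩
  choose P hPs hP using fun c => exists_div h2 (S c) (g ^ 2) (hdiv c)
  -- compatibility
  have hlift : ∀ c (v : Fin 4 → R), q' (act (lft N c) (act N v)) = g ^ 2 * (e c ^ 2 * q' v) := by
    intro c v
    rw [lft_act, hmnr]
    have h1 : (g • e) c • v - v c • g • e = (g * e c) • v + (-(v c * g)) • e := by
      funext i
      simp only [Pi.sub_apply, Pi.smul_apply, smul_eq_mul, Pi.add_apply]
      ring
    rw [h1, hq'inv, hq'smul]
    ring
  have hcomp : ∀ c c' (x : Fin 3 → R), e c ^ 2 * qf (P c') x = e c' ^ 2 * qf (P c) x := by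
    intro c c' x
    have h1 := hlift c' (act (lft N c) x)
    have h3 : act (lft N c') (act N (act (lft N c) x)) = mnr N c • act (lft N c') x := by
      rw [act_lft, act_smul]
    rw [h3, hq'smul, ← hS, ← hS, ← hP, ← hP, he] at h1
    have h4 : g ^ 4 * (e c ^ 2 * qf (P c') x) = g ^ 4 * (e c' ^ 2 * qf (P c) x) := by
      linear_combination h1
    exact mul_left_cancel₀ (pow_ne_zero 4 hg0) h4
  obtain ⟨c0, hc0⟩ : ∃ c, e c ≠ 0 := by
    obtain ⟨i, hi⟩ := hprim g H.hg
    exact ⟨i, fun h => hi (by rw [h]; exact dvd_zero g)⟩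
  have hdiv2 : ∀ x : Fin 3 → R, e c0 ^ 2 ∣ qf (P c0) x := by
    intro x
    refine ufd_dvd (fun c => e c ^ 2) hprim2 _ (pow_ne_zero 2 hc0) _ fun c => ?_
    rw [hcomp c c0 x]
    exact dvd_mul_right _ _
  obtain ⟨A, hAs, hA⟩ := exists_div h2 (P c0) (e c0 ^ 2) hdiv2
  refine ⟨A, hAs, fun v => ?_⟩
  have h1 := hlift c0 v
  rw [← hS, ← hP, ← hA] at h1
  have h3 : (g ^ 2 * e c0 ^ 2) * qf A (act N v) = (g ^ 2 * e c0 ^ 2) * q' v := by
    linear_combination h1
  exact (mul_left_cancel₀ (mul_ne_zero (pow_ne_zero 2 hg0) (pow_ne_zero 2 hc0)) h3).symm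

end main

end Vale.Agent.P287.H631
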