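import Vale.Agent.P287.Forms

/-!
Elementary algebra of `3 × 4` matrices: maximal minors, lifts, and the kernel.
-/

namespace Vale.Agent.P287.H631

open Vale.Agent.P287 Matrix

section

variable {R : Type*} [CommRing R]

/-- The vector of signed maximal minors of a `3 × 4` matrix; it spans the kernel. -/
def mnr (N : Matrix (Fin 3) (Fin 4) R) : Fin 4 → R :=
  ![ N 0 1 * N 1 2 * N 2 3 - N 0 1 * N 1 3 * N 2 2 - N 0 2 * N 1 1 * N 2 3
      + N 0 2 * N 1 3 * N 2 1 + N 0 3 * N 1 1 * N 2 2 - N 0 3 * N 1 2 * N 2 1,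
    -(N 0 0 * N 1 2 * N 2 3 - N 0 0 * N 1 3 * N 2 2 - N 0 2 * N 1 0 * N 2 3
      + N 0 2 * N 1 3 * N 2 0 + N 0 3 * N 1 0 * N 2 2 - N 0 3 * N 1 2 * N 2 0),
    N 0 0 * N 1 1 * N 2 3 - N 0 0 * N 1 3 * N 2 1 - N 0 1 * N 1 0 * N 2 3
      + N 0 1 * N 1 3 * N 2 0 + N 0 3 * N 1 0 * N 2 1 - N 0 3 * N 1 1 * N 2 0,
    -(N 0 0 * N 1 1 * N 2 2 - N 0 0 * N 1 2 * N 2 1 - N 0 1 * N 1 0 * N 2 2
      + N 0 1 * N 1 2 * N 2 0 + N 0 2 * N 1 0 * N 2 1 - N 0 2 * N 1 1 * N 2 0)]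

/-- The `2 × 2` minor of rows `i, j` and columns `a, b`. -/
def mnr2 (N : Matrix (Fin 3) (Fin 4) R) (i j : Fin 3) (a b : Fin 4) : R :=
  N i a * N j b - N i b * N j a

/-- `lft N c x` is a vector `v` with `v c = 0` and `N v = mnr N c • x`. -/
def lft (N : Matrix (Fin 3) (Fin 4) R) : Fin 4 → Matrix (Fin 4) (Fin 3) R :=
  ![ !![0, 0, 0;
        mnr2 N 1 2 2 3, -mnr2 N 0 2 2 3, mnr2 N 0 1 2 3;
        -mnr2 N 1 2 1 3, mnr2 N 0 2 1 3, -mnr2 N 0 1 1 3;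
        mnr2 N 1 2 1 2, -mnr2 N 0 2 1 2, mnr2 N 0 1 1 2],
     !![-mnr2 N 1 2 2 3, mnr2 N 0 2 2 3, -mnr2 N 0 1 2 3;
        0, 0, 0;
        mnr2 N 1 2 0 3, -mnr2 N 0 2 0 3, mnr2 N 0 1 0 3;
        -mnr2 N 1 2 0 2, mnr2 N 0 2 0 2, -mnr2 N 0 1 0 2],
     !![mnr2 N 1 2 1 3, -mnr2 N 0 2 1 3, mnr2 N 0 1 1 3;
        -mnr2 N 1 2 0 3, mnr2 N 0 2 0 3, -mnr2 N 0 1 0 3;
        0, 0, 0;
        mnr2 N 1 2 0 1, -mnr2 N 0 2 0 1, mnr2 N 0 1 0 1],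
     !![-mnr2 N 1 2 1 2, mnr2 N 0 2 1 2, -mnr2 N 0 1 1 2;
        mnr2 N 1 2 0 2, -mnr2 N 0 2 0 2, mnr2 N 0 1 0 2;
        -mnr2 N 1 2 0 1, mnr2 N 0 2 0 1, -mnr2 N 0 1 0 1;
        0, 0, 0]]

lemma act_mnr (N : Matrix (Fin 3) (Fin 4) R) : act N (mnr N) = 0 := by
  funext i
  fin_cases i <;> simp [act, mnr, Fin.sum_univ_four] <;> ring

lemma act_lft (N : Matrix (Fin 3) (Fin 4) R) (c : Fin 4) (x : Fin 3 → R) :
    act N (act (lft N c) x) = mnr N c • x := by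
  funext i
  fin_cases c <;> fin_cases i <;>
    simp [act, lft, mnr, mnr2, Fin.sum_univ_four, Fin.sum_univ_three] <;> ring

lemma lft_act (N : Matrix (Fin 3) (Fin 4) R) (c : Fin 4) (v : Fin 4 → R) :
    act (lft N c) (act N v) = mnr N c • v - v c • mnr N := by
  funext i
  fin_cases c <;> fin_cases i <;>
    simp [act, lft, mnr, mnr2, Fin.sum_univ_four, Fin.sum_univ_three] <;> ring

/-- The rows of `lft N c` different from the zero row `c`. -/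
def lft3 (N : Matrix (Fin 3) (Fin 4) R) (c : Fin 4) : Matrix (Fin 3) (Fin 3) R :=
  fun i j => lft N c (Fin.succAbove c i) j

lemma det_lft3 (N : Matrix (Fin 3) (Fin 4) R) (c : Fin 4) :
    (lft3 N c).det = mnr N c ^ 2 ∨ (lft3 N c).det = - mnr N c ^ 2 := by
  rw [Matrix.det_fin_three]
  fin_cases c
  · left
    simp [lft3, lft, mnr, mnr2, Fin.succAbove]
    ring
  · right
    simp [lft3, lft, mnr, mnr2, Fin.succAbove]
    ring
  · left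
    simp [lft3, lft, mnr, mnr2, Fin.succAbove]
    ring
  · right
    simp [lft3, lft, mnr, mnr2, Fin.succAbove]
    ring

/-- The entries of `lft3` are minors up to sign. -/
lemma lft3_dvd (N : Matrix (Fin 3) (Fin 4) R) (g : R) (h : ∀ i j a b, g ∣ mnr2 N i j a b)
    (c : Fin 4) (i j : Fin 3) : g ∣ lft3 N c i j := by
  fin_cases c <;> fin_cases i <;> fin_cases j <;>
    simp [lft3, lft, Fin.succAbove, h]

end

end Vale.Agent.P287.H631
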