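import Vale.Agent.P287.H631.Springer

/-!
Springer's theorem for arbitrary quadratic forms, keeping track of the radical.
-/

open MvPolynomial

namespace Vale.Agent.P287.H631

open Vale.Agent.P287

/-- Diagonalisation of a quadratic form given by a matrix. -/
theorem exists_diag {k : Type} [Field k] [CharZero k] {n : ℕ} (Q : Matrix (Fin n) (Fin n) k) :
    ∃ (n' : ℕ) (P : Matrix (Fin n) (Fin n') k) (P' : Matrix (Fin n') (Fin n) k) (d : Fin n' → k),
      P * P' = 1 ∧ P' * P = 1 ∧ ∀ u : Fin n' → k, qf Q (act P u) = ∑ i, d i * u i ^ 2 := by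
  classical
  have : Invertible (2 : k) := invertibleOfNonzero two_ne_zero
  obtain ⟨w, ⟨e⟩⟩ := QuadraticForm.equivalent_weightedSumSquares (Q.toQuadraticForm')
  refine ⟨_, LinearMap.toMatrix' e.symm.toLinearEquiv.toLinearMap,
    LinearMap.toMatrix' e.toLinearEquiv.toLinearMap, w, ?_, ?_, ?_⟩
  · rw [← LinearMap.toMatrix'_comp, ← LinearMap.toMatrix'_id]
    congr 1
    exact LinearMap.ext fun x => e.toLinearEquiv.symm_apply_apply x
  · rw [← LinearMap.toMatrix'_comp, ← LinearMap.toMatrix'_id]
    congr 1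
    exact LinearMap.ext fun x => e.toLinearEquiv.apply_symm_apply x
  · intro u
    rw [act_self]
    have h1 : (LinearMap.toMatrix' e.symm.toLinearEquiv.toLinearMap).mulVec u = e.symm u := by
      rw [LinearMap.toMatrix'_mulVec]
      rfl
    rw [h1]
    have h2 : qf Q (e.symm u) = Q.toQuadraticForm' (e.symm u) := by
      have h3 : Q.toQuadraticForm' (e.symm u) = Matrix.toLinearMap₂' k Q (e.symm u) (e.symm u) :=
        rfl
      rw [h3, Matrix.toLinearMap₂'_apply]
      simp only [qf, Algebra.algebraMap_self, RingHom.id_apply]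
      refine Finset.sum_congr rfl fun i _ => Finset.sum_congr rfl fun j _ => ?_
      simp only [smul_eq_mul]
      ring
    rw [h2, QuadraticMap.IsometryEquiv.map_app]
    simp [QuadraticMap.weightedSumSquares_apply, sq]

section

variable {k : Type} [Field k] [Infinite k] {n n' : ℕ}

/-- The diagonalisation holds in every algebra. -/
lemma diag_map {Q : Matrix (Fin n) (Fin n) k} {P : Matrix (Fin n) (Fin n') k} {d : Fin n' → k}
    (h : ∀ u : Fin n' → k, qf Q (act P u) = ∑ i, d i * u i ^ 2)
    {A : Type} [CommRing A] [Algebra k A] (u : Fin n' → A) :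
    qf Q (act P u) = ∑ i, algebraMap k A (d i) * u i ^ 2 := by
  set D : MvPolynomial (Fin n') k := qf Q (act P X) - ∑ i, C (d i) * X i ^ 2 with hD
  have key : ∀ {B : Type} [CommRing B] [Algebra k B] (w : Fin n' → B),
      aeval w D = qf Q (act P w) - ∑ i, algebraMap k B (d i) * w i ^ 2 := by
    intro B _ _ w
    rw [hD, map_sub, map_qf, map_act, map_sum]
    simp
  have h0 : ∀ w : Fin n' → k, aeval w D = 0 := by
    intro w
    rw [key w, h w]
    simp
  have h1 := aeval_eq_zero_of_forall D h0 u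
  rw [key u] at h1
  exact sub_eq_zero.mp h1

lemma diag_pf {Q : Matrix (Fin n) (Fin n) k} {P : Matrix (Fin n) (Fin n') k} {d : Fin n' → k}
    (h : ∀ u : Fin n' → k, qf Q (act P u) = ∑ i, d i * u i ^ 2)
    {A : Type} [CommRing A] [Algebra k A] (u w : Fin n' → A) :
    pf Q (act P u) (act P w) = 2 * ∑ i, algebraMap k A (d i) * (u i * w i) := by
  have h1 : qf Q (act P (u + w)) = _ := diag_map h (u + w)
  rw [act_add, qf_add, diag_map h, diag_map h] at h1
  have h2 : pf Q (act P u) (act P w) = (∑ i, algebraMap k A (d i) * (u + w) i ^ 2) -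
      (∑ i, algebraMap k A (d i) * u i ^ 2) - ∑ i, algebraMap k A (d i) * w i ^ 2 := by
    rw [← h1]; ring
  rw [h2, ← Finset.sum_sub_distrib, ← Finset.sum_sub_distrib, Finset.mul_sum]
  refine Finset.sum_congr rfl fun i _ => ?_
  simp only [Pi.add_apply]
  ring

end

/-- Springer's theorem: a zero of a quadratic form, outside of the radical, over an extension of odd
degree gives a zero outside of the radical over the ground field. -/
theorem springer {k E : Type} [Field k] [Field E] [Algebra k E] [CharZero k]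
    (hodd : Odd (Module.finrank k E)) {n : ℕ} (Q : Matrix (Fin n) (Fin n) k)
    (v u : Fin n → E) (hv : qf Q v = 0) (hu : pf Q v u ≠ 0) :
    ∃ v' u' : Fin n → k, qf Q v' = 0 ∧ pf Q v' u' ≠ 0 := by
  classical
  obtain ⟨n', P, P', d, hPP', hP'P, hd⟩ := exists_diag Q
  set w := act P' v with hw
  set z := act P' u with hz
  have hvw : act P w = v := by rw [hw, ← act_mul, hPP', act_one]
  have huz : act P z = u := by rw [hz, ← act_mul, hPP', act_one]
  rw [← hvw, diag_map hd] at hv
  rw [← hvw, ← huz, diag_pf hd] at hu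
  have hsum : ∑ i, algebraMap k E (d i) * (w i * z i) ≠ 0 := right_ne_zero_of_mul hu
  obtain ⟨i0, _, hi0⟩ := Finset.exists_ne_zero_of_sum_ne_zero hsum
  have hdi0 : d i0 ≠ 0 := by
    rintro h
    rw [h, map_zero, zero_mul] at hi0
    exact hi0 rfl
  have hwi0 : w i0 ≠ 0 := by
    rintro h
    rw [h, zero_mul, mul_zero] at hi0
    exact hi0 rfl
  have hsub : ∀ (A : Type) [CommRing A] (g : k →+* A) (f : Fin n' → A),
      ∑ i : {i : Fin n' // d i ≠ 0}, g (d i.1) * f i.1 = ∑ i, g (d i) * f i := by
    intro A _ g f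
    have h1 : ∑ i ∈ Finset.univ.filter (fun i => d i ≠ 0), g (d i) * f i =
        ∑ i : {i : Fin n' // d i ≠ 0}, g (d i.1) * f i.1 :=
      Finset.sum_subtype _ (by simp) _
    rw [← h1, Finset.sum_filter_of_ne]
    intro i _ h h0
    rw [h0, map_zero, zero_mul] at h
    exact h rfl
  obtain ⟨w0, hw0, hw0q⟩ := springer_diag hodd (fun i : {i : Fin n' // d i ≠ 0} => d i.1)
    (fun i => w i.1) (by
      intro h
      exact hwi0 (congrFun h ⟨i0, hdi0⟩)) (by
      rw [hsub E (algebraMap k E) (fun i => w i ^ 2)]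
      exact hv)
  obtain ⟨⟨i1, hi1⟩, hne⟩ : ∃ i, w0 i ≠ 0 := by
    by_contra h
    push Not at h
    exact hw0 (funext h)
  let w1 : Fin n' → k := fun i => if h : d i ≠ 0 then w0 ⟨i, h⟩ else 0
  have hw1 : ∀ i : {i : Fin n' // d i ≠ 0}, w1 i.1 = w0 i := by
    rintro ⟨i, hi⟩
    simp only [w1]
    rw [dif_pos hi]
  refine ⟨act P w1, act P (Pi.single i1 1), ?_, ?_⟩
  · rw [hd]
    have := hsub k (RingHom.id k) (fun i => w1 i ^ 2)
    simp only [RingHom.id_apply] at this
    rw [← this]
    simp only [hw1]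
    convert hw0q
  · rw [diag_pf hd, Finset.sum_eq_single i1]
    · rw [Pi.single_eq_same]
      have h1 : w1 i1 ≠ 0 := by
        have := hw1 ⟨i1, hi1⟩
        rw [this]
        exact hne
      simp only [Algebra.algebraMap_self, RingHom.id_apply, mul_one]
      exact mul_ne_zero two_ne_zero (mul_ne_zero hi1 h1)
    · intro j _ hj
      rw [Pi.single_eq_of_ne hj]
      ring
    · simp

end Vale.Agent.P287.H631
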