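import Vale.Agent.P287.H631.OnCurve
import Vale.Agent.P287.H631.NonRad
import Vale.Agent.P287.H631.RatTr
import Vale.Agent.P287.H631.SpringerQ
import Vale.Agent.P287.SmoothIrr

/-!
Assembly: cubic fourfolds containing a plane and a scroll of lines over a plane curve of odd degree.
-/

open MvPolynomial

namespace Vale.Agent.P287.H631

open Vale.Agent.P287

section dvd

variable {R : Type} [CommRing R] [IsDomain R] [UniqueFactorizationMonoid R]
variable {Q : Matrix (Fin 4) (Fin 4) R} {N : Matrix (Fin 3) (Fin 4) R} {g : R}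
    {κ : Type} [Field κ] [Algebra R κ] {W : Submodule κ (Fin 4 → κ)}

lemma ScrollData.dvd_qf (H : ScrollData Q N g κ W) (hne : ∃ c, ¬ g ^ 2 ∣ mnr N c)
    (e : Fin 4 → R) (he : ∀ c, mnr N c = g * e c) : g ∣ qf Q e := by
  have hg0 : g ≠ 0 := H.hg.ne_zero
  have hmnr : mnr N = g • e := by
    funext c
    exact he c
  have heN : act N e = 0 := by
    have h1 := act_mnr N
    rw [hmnr, act_smul] at h1
    exact (smul_eq_zero.mp h1).resolve_left hg0
  have heW : (fun i => algebraMap R κ (e i)) ∈ W := by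
    apply H.ker_le hne
    have h1 := map_act (Algebra.ofId R κ) N e
    have h2 : act N (fun i => algebraMap R κ (e i)) = fun i => algebraMap R κ (act N e i) := h1.symm
    rw [h2, heN]
    funext i
    simp
  rw [← H.hκ]
  have h3 := map_qf (Algebra.ofId R κ) Q e
  have h4 : qf Q (fun i => Algebra.ofId R κ (e i)) = 0 := H.hq _ heW
  rw [h4] at h3
  exact h3

end dvd

lemma homog_of_sg {p : R3} {k : ℕ} (h : ∀ c : ℂ, c ≠ 0 → sg c p = C c ^ k * p) :
    p.IsHomogeneous k := by
  apply homog_of_aeval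
  intro c t hc
  have h1 := aeval_sg p c t
  rw [h c hc, map_mul, map_pow] at h1
  have h2 : aeval t (C c : R3) = c := by simp
  rw [h2] at h1
  exact h1.symm

section

variable {a : Fin 3 → Fin 3 → R3} {b : Fin 3 → R3} {m : ℕ}

lemma mnr_homog (ha : ∀ j i, (a j i).IsHomogeneous m) (hb : ∀ j, (b j).IsHomogeneous (m + 1))
    (k : Fin 4) : ∃ d, d ≤ 3 * m + 1 ∧ (mnr (Nm a b) k).IsHomogeneous d := by
  refine Fin.cases ?_ (fun i => ?_) k
  · exact ⟨3 * m, by omega, homog_of_sg fun c _ => mnr_scale0 ha c⟩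
  · exact ⟨3 * m + 1, le_rfl, homog_of_sg fun c _ => mnr_scale ha hb c i⟩

lemma sq_not_dvd (ha : ∀ j i, (a j i).IsHomogeneous m) (hb : ∀ j, (b j).IsHomogeneous (m + 1))
    {g : R3} (hg : g.IsHomogeneous (2 * m + 1)) (hg0 : g ≠ 0) (k : Fin 4)
    (hk : mnr (Nm a b) k ≠ 0) : ¬ g ^ 2 ∣ mnr (Nm a b) k := by
  obtain ⟨d, hd, hh⟩ := mnr_homog ha hb k
  exact not_dvd_of_lt (hg.pow 2) (pow_ne_zero 2 hg0) hh hk (by omega)

lemma qf_e_homog (B : Fin 3 → Matrix (Fin 6) (Fin 6) ℂ)
    (ha : ∀ j i, (a j i).IsHomogeneous m) (hb : ∀ j, (b j).IsHomogeneous (m + 1))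
    {g : R3} (hg : g.IsHomogeneous (2 * m + 1)) (hg0 : g ≠ 0) {e : Fin 4 → R3}
    (he : ∀ k, mnr (Nm a b) k = g * e k) : (qf (QR B) e).IsHomogeneous (2 * m + 1) := by
  apply homog_of_sg
  intro c hc
  have hC := C_ne hc
  have h1 := map_qf' (sg c : R3 →+* R3) (QR B) e
  have h2 : sg c (qf (QR B) e) = qf ((QR B).map (sg c)) (fun i => sg c (e i)) := h1
  have h3 := e_scale ha hb hg hg0 he hc
  have h4 : C c ^ 2 * sg c (qf (QR B) e) = C c ^ 2 * (C c ^ (2 * m + 1) * qf (QR B) e) := by
    rw [h2, ← qf_smul, h3, qf_smul, qf_scale]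
    ring
  exact mul_left_cancel₀ (pow_ne_zero 2 hC) h4

lemma exists_gamma {g p : R3} {k : ℕ} (hg : g.IsHomogeneous k) (hg0 : g ≠ 0)
    (hp : p.IsHomogeneous k) (h : g ∣ p) : ∃ γ : ℂ, p = C γ * g := by
  obtain ⟨q, rfl⟩ := h
  by_cases hq : q = 0
  · exact ⟨0, by rw [hq]; simp⟩
  · have h1 := hp.totalDegree (mul_ne_zero hg0 hq)
    have h2 := hg.totalDegree hg0
    rw [totalDegree_mul_of_isDomain hg0 hq, h2] at h1
    have h3 : q.totalDegree = 0 := by omega
    rw [totalDegree_eq_zero_iff_eq_C] at h3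
    exact ⟨coeff 0 q, by rw [← h3, mul_comm]⟩

end

/-- The main theorem on scrolls of lines over plane curves of odd degree. -/
theorem odd_main (B : Fin 3 → Matrix (Fin 6) (Fin 6) ℂ) (hsm : SmoothForm (cubic B))
    {m : ℕ} {g : R3} (hgp : Prime g) (hg : g.IsHomogeneous (2 * m + 1))
    {κ : Type} [Field κ] [Algebra ℂ κ] (τ : Fin 3 → κ)
    (hτ : ∀ p : R3, aeval τ p = 0 ↔ g ∣ p) (W : Submodule κ (Fin 4 → κ))
    (hW : Module.finrank κ W = 2) (hWF : ∀ w ∈ W, aeval (wvec τ w) (cubic B) = 0)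
    (hW0 : ∃ w ∈ W, w 0 ≠ 0)
    {a : Fin 3 → Fin 3 → R3} {b : Fin 3 → R3}
    (ha : ∀ j i, (a j i).IsHomogeneous m) (hb : ∀ j, (b j).IsHomogeneous (m + 1))
    (hWN : ∀ w ∈ W, ∀ j, aeval τ (b j) * w 0 + ∑ i, aeval τ (a j i) * w i.succ = 0)
    (hLI : LinearIndependent RatK (fun j => ((Nm a b).map (aeval tvec : R3 →ₐ[ℂ] RatK)) j))
    {E : Type} [Field E] [Algebra ℂ E] [Algebra RatK E] [IsScalarTower ℂ RatK E]
    (hodd : Odd (Module.finrank RatK E)) (z : Fin 6 → E) (hz : aeval z (cubic B) = 0)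
    (c : E) (hc : c ≠ 0)
    (hφ : ∀ j, aeval ![z 0, z 1, z 2] (b j) + ∑ i : Fin 3, aeval ![z 0, z 1, z 2] (a j i) *
      z (Fin.natAdd 3 i) = c * algebraMap RatK E (tvec j))
    (hm : 2 ≤ m ∨ aeval ![z 0, z 1, z 2] g ≠ 0) :
    Nonempty (FractionRing (MvPolynomial (Fin 5) ℂ ⧸ Ideal.span {chart (cubic B)}) ≃ₐ[ℂ]
      FractionRing (MvPolynomial (Fin 4) ℂ)) := by
  classical
  have hcharK : CharZero RatK := charZero_of_injective_algebraMap (algebraMap ℂ RatK).injective
  have nd := nondegenerate_of_smooth B hsm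
  have hp := prime_of_smooth B hsm
  have hg0 := hgp.ne_zero
  set N := Nm a b with hN
  -- the scroll
  let _ : Algebra R3 κ := (aeval τ : R3 →ₐ[ℂ] κ).toRingHom.toAlgebra
  have hcharκ : CharZero κ := charZero_of_injective_algebraMap (algebraMap ℂ κ).injective
  have hqW : ∀ w : Fin 4 → κ, qf (QR B) w = net B τ (wvec τ w) := fun w => qf_QR B τ w
  have hS : ScrollData (QR B) N g κ W :=
    { hg := hgp
      hκ := fun r => hτ r
      hW := hW
      hq := by
        have h1 : ∀ w ∈ W, w 0 ≠ 0 → qf (QR B) w = 0 := by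
          intro w hw hw0
          have h2 := hWF w hw
          rw [aeval_cubic_wvec] at h2
          rw [hqW]
          exact (mul_eq_zero.mp h2).resolve_left hw0
        intro w hw
        by_cases hw0 : w 0 = 0
        · obtain ⟨u, hu, hu0⟩ := hW0
          have e1 := h1 (u + w) (W.add_mem hu hw) (by simpa [hw0] using hu0)
          have e2 := h1 (u + (-1 : κ) • w) (W.add_mem hu (W.smul_mem _ hw))
            (by simpa [hw0] using hu0)
          have e3 := h1 u hu hu0
          rw [qf_add, e3] at e1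
          rw [qf_add, e3, qf_smul, pf_smul_right] at e2
          have h2 : 2 * qf (QR B) w = 0 := by linear_combination e1 + e2
          exact (mul_eq_zero.mp h2).resolve_left two_ne_zero
        · exact h1 w hw hw0
      hN := by
        intro w hw
        funext j
        have h1 := hWN w hw j
        change ∑ k, aeval τ (N j k) * w k = 0
        rw [Fin.sum_univ_succ]
        exact h1 }
  -- a minor which does not vanish
  obtain ⟨k0, hk0'⟩ := exists_mnr_ne _ hLI
  have hk0 : (aeval tvec : R3 →ₐ[ℂ] RatK) (mnr N k0) ≠ 0 := by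
    have h1 := map_mnr ((aeval tvec : R3 →ₐ[ℂ] RatK) : R3 →+* RatK) N k0
    intro h0
    apply hk0'
    refine Eq.trans h1 h0
  have hk00 : mnr N k0 ≠ 0 := by
    intro h
    rw [h, map_zero] at hk0
    exact hk0 rfl
  have hne : ∃ c, ¬ g ^ 2 ∣ mnr N c := ⟨k0, sq_not_dvd ha hb hg hg0 k0 hk00⟩
  choose e he using fun k => hS.dvd_mnr k
  obtain ⟨γ, hγ⟩ := exists_gamma hg hg0 (qf_e_homog B ha hb hg hg0 he) (hS.dvd_qf hne e he)
  by_cases hγ0 : γ = 0
  · -- a rational point
    rw [hγ0, map_zero, zero_mul] at hγ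
    have h1 := map_qf' ((aeval tvec : R3 →ₐ[ℂ] RatK) : R3 →+* RatK) (QR B) e
    rw [hγ, map_zero] at h1
    have h2 : qf ((QR B).map (aeval tvec : R3 →ₐ[ℂ] RatK)) (fun i => aeval tvec (e i)) = 0 :=
      h1.symm
    rw [qf_QR] at h2
    refine rational_of_isotropic B hp nd (fun i => aeval tvec (e i)) ?_ ?_
    · intro h3
      apply hk0
      have h4 : (aeval tvec : R3 →ₐ[ℂ] RatK) (e k0) = 0 := congrFun h3 k0
      rw [he, map_mul, h4, mul_zero]
    · rw [qf_qmat]
      simpa using h2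
  -- the identity
  have hCγ : IsUnit (C γ : R3) := (IsUnit.mk0 γ hγ0).map C
  have h2u : IsUnit (2 : R3) := by
    have h1 : (2 : R3) = C 2 := (map_ofNat C 2).symm
    rw [h1]
    exact (IsUnit.mk0 (2 : ℂ) two_ne_zero).map C
  obtain ⟨A, hAs, hA⟩ := hS.identity h2u hne e he (C γ) hCγ hγ
  have hAh := A_homog B ha hb hg hg0 he ⟨k0, hk00⟩ γ hAs hA
  have hex : ∀ p : R3, ∃ α : Matrix (Fin 3) (Fin 3) ℂ, p.IsHomogeneous 2 →
      p = qf α (X : Fin 3 → R3) := by
    intro p
    by_cases h : p.IsHomogeneous 2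
    · obtain ⟨α, _, hα⟩ := exists_sym_of_homog p h
      exact ⟨α, fun _ => hα⟩
    · exact ⟨0, fun h' => absurd h' h⟩
  choose Φ hΦ using hex
  set Θ : Fin 3 → Fin 3 → Matrix (Fin 3) (Fin 3) ℂ := fun i j => Φ (A i j) with hΘ
  have hΘs : ∀ i j, Θ i j = Θ j i := fun i j => by
    simp only [Θ]
    rw [hAs]
  have hAΘ : A = Matrix.of fun i j => qf (Θ i j) (X : Fin 3 → R3) := by
    ext1 i j
    exact hΦ _ (hAh i j)
  have hid : ∀ v : Fin 4 → R3, pf (QR B) e v ^ 2 - 4 * C γ * g * qf (QR B) v =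
      qf (Matrix.of fun i j => qf (Θ i j) (X : Fin 3 → R3)) (act N v) := by
    rw [← hAΘ]
    exact hA
  -- the point
  have hfin : FiniteDimensional RatK E := Module.finite_of_finrank_pos hodd.pos
  have halg : Algebra.IsAlgebraic RatK E := Algebra.IsAlgebraic.of_finite RatK E
  have hcharE : CharZero E := charZero_of_injective_algebraMap (algebraMap ℂ E).injective
  set t : Fin 3 → E := ![z 0, z 1, z 2] with ht
  set v : Fin 4 → E := ![1, z 3, z 4, z 5] with hv
  have hv0 : v 0 = 1 := rfl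
  have hw : wvec t v = z := by
    funext i
    fin_cases i <;> simp [wvec, t, v]
  have hF : net B t (wvec t v) = 0 := by
    have h1 := aeval_cubic_wvec B t v
    rw [hw, hz, hv0, one_mul] at h1
    rw [hw]
    exact h1.symm
  have hf : act (N.map (aeval t : R3 →ₐ[ℂ] E)) v = c • fun i => algebraMap RatK E (tvec i) := by
    funext j
    have h1 := hφ j
    change ∑ k, aeval t (N j k) * v k = c * algebraMap RatK E (tvec j)
    rw [← h1, Fin.sum_univ_succ]
    congr 1
    exact mul_one _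
  have hpt : ∃ w u : Fin 4 → E, qf (Q2 Θ tvec) w = 0 ∧ pf (Q2 Θ tvec) w u ≠ 0 := by
    rcases point_or_crit B N Θ hΘs e _ hid t v c hc hF hf with h | ⟨hs0, h3, h1⟩
    · exact h
    exfalso
    by_cases hgt : aeval t g = 0
    · have hm2 : 2 ≤ m := by
        rcases hm with h | h
        · exact h
        · exact absurd hgt h
      have hnc : ¬ ∃ (d : Fin 3 → ℂ) (r : E), t = r • fun i => algebraMap ℂ E (d i) := by
        rintro ⟨d, r, hdr⟩
        by_cases hr : r = 0
        · refine not_const ha hb he 0 ?_ t 0 ?_ v c hc hf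
          · have h4 := aeval_smul_of_homog hg (A := ℂ) (0 : ℂ) (0 : Fin 3 → ℂ)
            rw [zero_smul] at h4
            rw [h4]
            simp
          · rw [hdr, hr, zero_smul, zero_smul]
        · refine not_const ha hb he d ?_ t r hdr v c hc hf
          have h4 := aeval_smul_of_homog hg r (fun i => algebraMap ℂ E (d i))
          rw [← hdr, hgt] at h4
          have h5 := (mul_eq_zero.mp h4.symm).resolve_left (pow_ne_zero _ hr)
          have h6 := MvPolynomial.comp_aeval_apply (R := ℂ) d (Algebra.ofId ℂ E) g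
          have h7 : algebraMap ℂ E (aeval d g) = 0 := h6.trans h5
          exact (map_eq_zero _).mp h7
      have hmin : ∀ i j c d, A i c * A j d = A i d * A j c := by
        intro i j c d
        by_contra hcon
        apply hnc
        have hhom : (A i c * A j d - A i d * A j c).IsHomogeneous 4 :=
          ((hAh i c).mul (hAh j d)).sub ((hAh i d).mul (hAh j c))
        refine exists_const hgp hg hhom (not_dvd_of_lt hg hg0 hhom (sub_ne_zero.mpr hcon)
          (by omega)) t hgt ?_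
        have h4 : ∀ i j, aeval t (A i j) = qf (Θ i j) t := by
          intro i j
          rw [hΦ _ (hAh i j)]
          have := map_qf (aeval t : R3 →ₐ[ℂ] E) (Θ i j) (X : Fin 3 → R3)
          simp only [aeval_X] at this
          exact this
        rw [map_sub, map_mul, map_mul, h4, h4, h4, h4, sub_eq_zero]
        exact rank_le_one hgp hg (by omega) Θ t hnc hgt h1 i j c d
      have hrg : (aeval tvec : R3 →ₐ[ℂ] RatK) (4 * C γ * g) ≠ 0 := by
        rw [map_mul, map_mul, map_ofNat]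
        refine mul_ne_zero (mul_ne_zero (OfNat.ofNat_ne_zero 4) ?_) ?_
        · rw [aeval_C]
          simpa using hγ0
        · intro h0
          apply hk0
          rw [he, map_mul, h0, zero_mul]
      exact rank_one_false B N A hAs e _ hA hrg hmin nd
    · have ht0 : t ≠ 0 := by
        intro h0
        apply hgt
        have h4 := aeval_smul_of_homog hg (0 : E) (0 : Fin 3 → E)
        rw [zero_smul] at h4
        rw [h0, h4]
        simp
      refine crit_false B hsm N Θ hΘs e _ hid t v c hv0 ht0 hF hf ?_ hs0 h3 h1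
      rw [map_mul, map_mul, map_ofNat]
      refine mul_ne_zero (mul_ne_zero (OfNat.ofNat_ne_zero 4) ?_) hgt
      rw [aeval_C]
      simpa using hγ0
  obtain ⟨w, u, hw0, hwu⟩ := hpt
  obtain ⟨v', u', hv', hu'⟩ := springer hodd (Q2 Θ tvec) w u hw0 hwu
  refine rational_of_fourGenerated' B hp nd fun E' _ _ _ _ η H htr => ?_
  obtain ⟨t', x', s', ht', hx', hgen, hs'⟩ :=
    exists_double B N Θ e g γ hγ0 hid he hγ k0 hk0 H
  exact fourGenerated_of_second htr t' x' s' ht' hx' hgen Θ hs' v' u' hv' hu'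

end Vale.Agent.P287.H631
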