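import Vale.Agent.P287.H631.Const
import Vale.Agent.P287.H631.Rows
import Vale.Agent.P287.H631.First
import Vale.Agent.P287.H631.DerExt
import Vale.Agent.P287.Rational

/-!
Critical points over the curve.
-/

open MvPolynomial

namespace Vale.Agent.P287.H631

open Vale.Agent.P287

section const

variable {E : Type} [Field E] [Algebra ℂ E] [Algebra RatK E] [IsScalarTower ℂ RatK E]
variable {a : Fin 3 → Fin 3 → R3} {b : Fin 3 → R3} {m : ℕ}

/-- The point does not lie over a constant point of the curve. -/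
theorem not_const (ha : ∀ j i, (a j i).IsHomogeneous m) (hb : ∀ j, (b j).IsHomogeneous (m + 1))
    {g : R3} {e : Fin 4 → R3} (he : ∀ k, mnr (Nm a b) k = g * e k)
    (c : Fin 3 → ℂ) (hc : aeval c g = 0) (t : Fin 3 → E) (r : E)
    (ht : t = r • fun i => algebraMap ℂ E (c i)) (v : Fin 4 → E) (s : E) (hs : s ≠ 0)
    (hf : act ((Nm a b).map (aeval t : R3 →ₐ[ℂ] E)) v = s • fun i => algebraMap RatK E (tvec i)) :
    False := by
  classical
  set φ : R3 →ₐ[ℂ] ℂ := aeval c with hφ
  have hm : ∀ k, mnr ((Nm a b).map (φ : R3 →+* ℂ)) k = 0 := by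
    intro k
    rw [map_mnr, he, map_mul]
    have : (φ : R3 →+* ℂ) g = 0 := hc
    rw [this, zero_mul]
  obtain ⟨d, hd0, hd⟩ := exists_relation _ hm
  have hcomp : ∀ p : R3, aeval (fun i => algebraMap ℂ E (c i)) p = algebraMap ℂ E (φ p) := by
    intro p
    have := MvPolynomial.comp_aeval_apply (R := ℂ) c (Algebra.ofId ℂ E) p
    exact this.symm
  have hmap : ∀ {p : R3} {k : ℕ}, p.IsHomogeneous k →
      (aeval t : R3 →ₐ[ℂ] E) p = r ^ k * algebraMap ℂ E (φ p) := by
    intro p k hp
    rw [ht, aeval_smul_of_homog hp, hcomp]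
  have hrel : ∀ k, ∑ j, algebraMap ℂ E (d j) * (aeval t : R3 →ₐ[ℂ] E) (Nm a b j k) = 0 := by
    intro k
    have h1 := hd k
    refine Fin.cases ?_ (fun k => ?_) k
    · have h2 : ∀ j, (aeval t : R3 →ₐ[ℂ] E) (Nm a b j 0) =
          r ^ (m + 1) * algebraMap ℂ E (φ (Nm a b j 0)) := fun j => hmap (hb j)
      simp only [h2]
      have h3 := hd 0
      have h4 : ∑ j, algebraMap ℂ E (d j) * (r ^ (m + 1) * algebraMap ℂ E (φ (Nm a b j 0))) =
          r ^ (m + 1) * algebraMap ℂ E (∑ j, d j * φ (Nm a b j 0)) := by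
        rw [map_sum, Finset.mul_sum]
        refine Finset.sum_congr rfl fun j _ => ?_
        rw [map_mul]
        ring
      rw [h4]
      have h5 : ∑ j, d j * φ (Nm a b j 0) = 0 := h3
      rw [h5, map_zero, mul_zero]
    · have h2 : ∀ j, (aeval t : R3 →ₐ[ℂ] E) (Nm a b j k.succ) =
          r ^ m * algebraMap ℂ E (φ (Nm a b j k.succ)) := fun j => hmap (ha j k)
      simp only [h2]
      have h3 := hd k.succ
      have h4 : ∑ j, algebraMap ℂ E (d j) * (r ^ m * algebraMap ℂ E (φ (Nm a b j k.succ))) =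
          r ^ m * algebraMap ℂ E (∑ j, d j * φ (Nm a b j k.succ)) := by
        rw [map_sum, Finset.mul_sum]
        refine Finset.sum_congr rfl fun j _ => ?_
        rw [map_mul]
        ring
      rw [h4]
      have h5 : ∑ j, d j * φ (Nm a b j k.succ) = 0 := h3
      rw [h5, map_zero, mul_zero]
  have h1 : ∑ j, algebraMap ℂ E (d j) * act ((Nm a b).map (aeval t : R3 →ₐ[ℂ] E)) v j = 0 := by
    simp only [act, Matrix.map_apply, Algebra.algebraMap_self, RingHom.id_apply, Finset.mul_sum]
    rw [Finset.sum_comm]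
    refine Finset.sum_eq_zero fun k _ => ?_
    have h2 : ∑ j, algebraMap ℂ E (d j) * ((aeval t : R3 →ₐ[ℂ] E) (Nm a b j k) * v k) =
        (∑ j, algebraMap ℂ E (d j) * (aeval t : R3 →ₐ[ℂ] E) (Nm a b j k)) * v k := by
      rw [Finset.sum_mul]
      refine Finset.sum_congr rfl fun j _ => ?_
      ring
    rw [h2, hrel, zero_mul]
  rw [hf] at h1
  have h2 : s * algebraMap RatK E (∑ j, algebraMap ℂ RatK (d j) * tvec j) = 0 := by
    rw [← h1, map_sum, Finset.mul_sum]
    refine Finset.sum_congr rfl fun j _ => ?_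
    rw [map_mul, ← IsScalarTower.algebraMap_apply ℂ RatK E]
    simp only [Pi.smul_apply, smul_eq_mul]
    ring
  have h3 := (mul_eq_zero.mp h2).resolve_left hs
  exact hd0 (tvec_LI d ((map_eq_zero _).mp h3))

end const

section chain

variable {E : Type} [Field E] [Algebra ℂ E]

lemma der_aeval (D : Derivation ℂ E E) (t : Fin 3 → E) (p : R3) :
    D (aeval t p) = ∑ i, aeval t (pderiv i p) * D (t i) := by
  classical
  induction p using MvPolynomial.induction_on with
  | C c => simp
  | add p q hp hq => simp only [map_add, hp, hq, add_mul, Finset.sum_add_distrib]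
  | mul_X p j hp =>
    simp only [map_mul, aeval_X, Derivation.leibniz, hp, smul_eq_mul, map_add]
    simp only [pderiv_X]
    have h1 : ∀ i, aeval t ((Pi.single i (1 : R3) : Fin 3 → R3) j) = (Pi.single i 1 : Fin 3 → E) j := by
      intro i
      by_cases h : j = i
      · subst h; simp
      · rw [Pi.single_eq_of_ne h, Pi.single_eq_of_ne h, map_zero]
    simp only [h1, add_mul, Finset.sum_add_distrib, Finset.mul_sum]
    congr 1
    · rw [Finset.sum_eq_single j]
      · simp
      · intro i _ hi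
        rw [Pi.single_eq_of_ne hi.symm]
        ring
      · simp
    · refine Finset.sum_congr rfl fun i _ => ?_
      ring

end chain

lemma not_dvd_of_lt {g p : R3} {k l : ℕ} (hg : g.IsHomogeneous k) (hg0 : g ≠ 0)
    (hp : p.IsHomogeneous l) (hp0 : p ≠ 0) (hlt : l < k) : ¬ g ∣ p := by
  rintro ⟨h, rfl⟩
  have hh : h ≠ 0 := right_ne_zero_of_mul hp0
  have h1 := hp.totalDegree hp0
  have h2 := hg.totalDegree hg0
  rw [totalDegree_mul_of_isDomain hg0 hh] at h1
  omega

section minors

variable {E : Type} [Field E] [Algebra ℂ E] [Algebra RatK E] [IsScalarTower ℂ RatK E]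

/-- At a critical point over a non-constant point of the curve the matrix `A` has rank at most
one. -/
theorem rank_le_one [Algebra.IsAlgebraic RatK E] {g : R3} {k : ℕ} (hgp : Prime g)
    (hg : g.IsHomogeneous k) (hk : 0 < k)
    (Θ : Fin 3 → Fin 3 → Matrix (Fin 3) (Fin 3) ℂ) (t : Fin 3 → E)
    (hnc : ¬ ∃ (c : Fin 3 → ℂ) (r : E), t = r • fun i => algebraMap ℂ E (c i))
    (htg : aeval t g = 0) (hA : ∀ i, ∑ j, qf (Θ i j) t * algebraMap RatK E (tvec j) = 0)
    (i j : Fin 3) (c d : Fin 3) :
    qf (Θ i c) t * qf (Θ j d) t = qf (Θ i d) t * qf (Θ j c) t := by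
  classical
  have hchar : CharZero E := charZero_of_injective_algebraMap (algebraMap ℂ E).injective
  -- the gradient of `g` does not vanish
  obtain ⟨i0, hi0⟩ : ∃ i, aeval t (pderiv i g) ≠ 0 := by
    obtain ⟨i0, hi0⟩ : ∃ i, pderiv i g ≠ 0 := by
      by_contra h
      push Not at h
      have h1 := hg.sum_X_mul_pderiv
      simp only [h, mul_zero, Finset.sum_const_zero] at h1
      have h2 : (k : R3) * g = 0 := by rw [← nsmul_eq_mul]; exact h1.symm
      have h3 : (k : R3) ≠ 0 := by exact_mod_cast hk.ne'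
      exact (mul_ne_zero h3 hgp.ne_zero) h2
    refine ⟨i0, fun h0 => hnc ?_⟩
    exact exists_const hgp hg hg.pderiv (not_dvd_of_lt hg hgp.ne_zero hg.pderiv hi0 (by omega))
      t htg h0
  set G : Fin 3 → E := fun i => aeval t (pderiv i g) with hG
  have hG0 : G ≠ 0 := fun h => hi0 (congrFun h i0)
  obtain ⟨D1, hD1⟩ := exists_der (E := E) 0
  obtain ⟨D2, hD2⟩ := exists_der (E := E) 1
  have hDg : ∀ D : Derivation ℂ E E, ∑ i, D (t i) * G i = 0 := by
    intro D
    have h1 := der_aeval D t g
    rw [htg, map_zero] at h1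
    rw [h1]
    refine Finset.sum_congr rfl fun i _ => mul_comm _ _
  have htG : ∑ i, t i * G i = 0 := by
    have h1 := congrArg (aeval t) hg.sum_X_mul_pderiv
    rw [map_sum, map_nsmul, htg, smul_zero] at h1
    simp only [map_mul, aeval_X] at h1
    exact h1
  -- a relation between `t` and its derivatives
  set M : Matrix (Fin 3) (Fin 3) E := Matrix.of ![t, fun i => D1 (t i), fun i => D2 (t i)] with hM
  have hMG : M.mulVec G = 0 := by
    funext k
    fin_cases k
    · exact htG
    · exact hDg D1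
    · exact hDg D2
  have hdet : M.det = 0 := Matrix.exists_mulVec_eq_zero_iff.mp ⟨G, hG0, hMG⟩
  obtain ⟨w, hw0, hw⟩ := Matrix.exists_vecMul_eq_zero_iff.mpr hdet
  have hwi : ∀ i, w 0 * t i + w 1 * D1 (t i) + w 2 * D2 (t i) = 0 := by
    intro i
    have h1 := congrFun hw i
    simp only [Matrix.vecMul, dotProduct, Fin.sum_univ_three, hM, Matrix.of_apply] at h1
    exact h1
  have ht0 : t ≠ 0 := by
    intro h
    exact hnc ⟨0, 0, by rw [h, zero_smul]⟩
  have hw12 : w 1 ≠ 0 ∨ w 2 ≠ 0 := by
    by_contra hcon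
    push Not at hcon
    obtain ⟨h1, h2⟩ := hcon
    have hw00 : w 0 ≠ 0 := by
      intro h
      apply hw0
      funext k
      fin_cases k
      · exact h
      · exact h1
      · exact h2
    apply ht0
    funext i
    have h3 := hwi i
    rw [h1, h2, zero_mul, zero_mul, add_zero, add_zero] at h3
    exact (mul_eq_zero.mp h3).resolve_left hw00
  let D : Derivation ℂ E E := w 1 • D1 + w 2 • D2
  have hDt : (fun i => D (t i)) = (-w 0) • t := by
    funext i
    have h1 := hwi i
    change w 1 * D1 (t i) + w 2 * D2 (t i) = -w 0 * t i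
    linear_combination h1
  set x : Fin 3 → E := fun i => algebraMap RatK E (tvec i) with hx
  have hx0 : x 0 = 1 := by
    change algebraMap RatK E 1 = 1
    exact map_one _
  have hDx0 : D (x 0) = 0 := by rw [hx0, Derivation.map_one_eq_zero]
  have hDx1 : D (x 1) = w 1 := by
    have h1 : D1 (x 1) = (Pi.single 0 1 : Fin 2 → E) 0 := hD1 0
    have h2 : D2 (x 1) = (Pi.single 1 1 : Fin 2 → E) 0 := hD2 0
    change w 1 * D1 (x 1) + w 2 * D2 (x 1) = w 1
    rw [h1, h2]
    simp
  have hDx2 : D (x 2) = w 2 := by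
    have h1 : D1 (x 2) = (Pi.single 0 1 : Fin 2 → E) 1 := hD1 1
    have h2 : D2 (x 2) = (Pi.single 1 1 : Fin 2 → E) 1 := hD2 1
    change w 1 * D1 (x 2) + w 2 * D2 (x 2) = w 2
    rw [h1, h2]
    simp
  have hA' : ∀ i, qf (Θ i 0) t + qf (Θ i 1) t * x 1 + qf (Θ i 2) t * x 2 = 0 := by
    intro i
    have h1 := hA i
    rw [Fin.sum_univ_three] at h1
    change qf (Θ i 0) t * x 0 + qf (Θ i 1) t * x 1 + qf (Θ i 2) t * x 2 = 0 at h1
    rwa [hx0, mul_one] at h1
  have hB' : ∀ i, qf (Θ i 1) t * w 1 + qf (Θ i 2) t * w 2 = 0 := by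
    intro i
    have h1 := congrArg D (hA i)
    rw [map_sum, map_zero] at h1
    have h2 : ∀ j, D (qf (Θ i j) t * x j) =
        (-w 0) * 2 * (qf (Θ i j) t * x j) + qf (Θ i j) t * D (x j) := by
      intro j
      rw [Derivation.leibniz, derivation_qf, hDt, pf_smul_right, pf_self]
      simp only [smul_eq_mul]
      ring
    change ∑ j, D (qf (Θ i j) t * x j) = 0 at h1
    simp only [h2, Finset.sum_add_distrib, ← Finset.mul_sum] at h1
    have h3 : ∑ j, qf (Θ i j) t * x j = 0 := hA i
    rw [h3, mul_zero, zero_add, Fin.sum_univ_three, hDx0, hDx1, hDx2, mul_zero, zero_add] at h1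
    exact h1
  -- the minors
  have m12 : ∀ i j, qf (Θ i 1) t * qf (Θ j 2) t - qf (Θ i 2) t * qf (Θ j 1) t = 0 := by
    intro i j
    rcases hw12 with h | h
    · have h1 : w 1 * (qf (Θ i 1) t * qf (Θ j 2) t - qf (Θ i 2) t * qf (Θ j 1) t) = 0 := by
        linear_combination qf (Θ j 2) t * hB' i - qf (Θ i 2) t * hB' j
      exact (mul_eq_zero.mp h1).resolve_left h
    · have h1 : w 2 * (qf (Θ i 1) t * qf (Θ j 2) t - qf (Θ i 2) t * qf (Θ j 1) t) = 0 := by
        linear_combination -qf (Θ j 1) t * hB' i + qf (Θ i 1) t * hB' j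
      exact (mul_eq_zero.mp h1).resolve_left h
  have m01 : ∀ i j, qf (Θ i 0) t * qf (Θ j 1) t - qf (Θ i 1) t * qf (Θ j 0) t = 0 := by
    intro i j
    linear_combination qf (Θ j 1) t * hA' i - qf (Θ i 1) t * hA' j + x 2 * m12 i j
  have m02 : ∀ i j, qf (Θ i 0) t * qf (Θ j 2) t - qf (Θ i 2) t * qf (Θ j 0) t = 0 := by
    intro i j
    linear_combination qf (Θ j 2) t * hA' i - qf (Θ i 2) t * hA' j - x 1 * m12 i j
  have e01 := m01 i j
  have e02 := m02 i j
  have e12 := m12 i j
  fin_cases c <;> fin_cases d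
  · ring
  · change qf (Θ i 0) t * qf (Θ j 1) t = qf (Θ i 1) t * qf (Θ j 0) t
    linear_combination e01
  · change qf (Θ i 0) t * qf (Θ j 2) t = qf (Θ i 2) t * qf (Θ j 0) t
    linear_combination e02
  · change qf (Θ i 1) t * qf (Θ j 0) t = qf (Θ i 0) t * qf (Θ j 1) t
    linear_combination -e01
  · ring
  · change qf (Θ i 1) t * qf (Θ j 2) t = qf (Θ i 2) t * qf (Θ j 1) t
    linear_combination e12
  · change qf (Θ i 2) t * qf (Θ j 0) t = qf (Θ i 0) t * qf (Θ j 2) t
    linear_combination -e02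
  · change qf (Θ i 2) t * qf (Θ j 1) t = qf (Θ i 1) t * qf (Θ j 2) t
    linear_combination -e12
  · ring

/-- A matrix `A` of rank one gives a degenerate quadric. -/
theorem rank_one_false (B : Fin 3 → Matrix (Fin 6) (Fin 6) ℂ) (N : Matrix (Fin 3) (Fin 4) R3)
    (A : Matrix (Fin 3) (Fin 3) R3) (hAs : ∀ i j, A i j = A j i) (e : Fin 4 → R3) (r : R3)
    (h : ∀ v : Fin 4 → R3, pf (QR B) e v ^ 2 - r * qf (QR B) v = qf A (act N v))
    (hr : (aeval tvec : R3 →ₐ[ℂ] RatK) r ≠ 0)
    (hmin : ∀ i j c d, A i c * A j d = A i d * A j c)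
    (nd : ∀ v : Fin 4 → RatK, (∀ w, pf (qmat B) v w = 0) → v = 0) : False := by
  classical
  set φ : R3 →ₐ[ℂ] RatK := aeval tvec with hφ
  set φr : R3 →+* RatK := (φ : R3 →+* RatK) with hφr
  have hid := transport (QR B) N A e r h φr
  set AK : Matrix (Fin 3) (Fin 3) RatK := A.map φr with hAK
  set NK : Matrix (Fin 3) (Fin 4) RatK := N.map φr with hNK
  set eK : Fin 4 → RatK := fun i => φr (e i) with heK
  have hq : ∀ v : Fin 4 → RatK, qf ((QR B).map φr) v = qf (qmat B) v := by
    intro v
    have h1 : qf ((QR B).map φr) v = net B tvec (wvec tvec v) := qf_QR B tvec v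
    rw [h1, qf_qmat]
    simp
  have hp : ∀ u v : Fin 4 → RatK, pf ((QR B).map φr) u v = pf (qmat B) u v := by
    intro u v
    rw [pf_eq_sub, pf_eq_sub, hq, hq, hq]
  simp only [hq, hp] at hid
  -- the polar form of the identity
  have hpol : ∀ v w : Fin 4 → RatK, 2 * pf (qmat B) eK v * pf (qmat B) eK w -
      φr r * pf (qmat B) v w = pf AK (act NK v) (act NK w) := by
    intro v w
    have h1 := hid (v + w)
    have h2 := hid v
    have h3 := hid w
    rw [act_add, pf_add_right, qf_add, qf_add] at h1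
    linear_combination h1 - h2 - h3
  have hAKs : ∀ i j, AK i j = AK j i := fun i j => by
    simp only [AK, Matrix.map_apply]
    rw [hAs]
  have hAKm : ∀ i j c d, AK i c * AK j d = AK i d * AK j c := fun i j c d => by
    simp only [AK, Matrix.map_apply, ← map_mul]
    rw [hmin]
  -- a functional whose kernel is the radical of `A`
  obtain ⟨l, hl⟩ : ∃ l : Fin 3 → RatK, ∀ y : Fin 3 → RatK, ∑ j, l j * y j = 0 →
      ∀ i, ∑ j, AK i j * y j = 0 := by
    by_cases h0 : ∃ i0 j0, AK i0 j0 ≠ 0
    · obtain ⟨i0, j0, h0⟩ := h0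
      refine ⟨AK i0, fun y hy i => ?_⟩
      have h1 : AK i0 j0 * ∑ j, AK i j * y j = AK i j0 * ∑ j, AK i0 j * y j := by
        rw [Finset.mul_sum, Finset.mul_sum]
        refine Finset.sum_congr rfl fun j _ => ?_
        linear_combination y j * hAKm i0 i j0 j
      rw [hy, mul_zero] at h1
      exact (mul_eq_zero.mp h1).resolve_left h0
    · push Not at h0
      exact ⟨0, fun y _ i => Finset.sum_eq_zero fun j _ => by rw [h0, zero_mul]⟩
  -- a vector in the radical
  let f : (Fin 4 → RatK) →ₗ[RatK] (Fin 2 → RatK) :=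
    { toFun := fun v => ![pf (qmat B) eK v, ∑ j, l j * act NK v j]
      map_add' := by
        intro v w
        funext i
        fin_cases i
        · exact pf_add_right _ _ _ _
        · change ∑ j, l j * act NK (v + w) j = _
          rw [act_add]
          simp only [Pi.add_apply, mul_add, Finset.sum_add_distrib]
          rfl
      map_smul' := by
        intro c v
        funext i
        fin_cases i
        · exact pf_smul_right _ _ _ _
        · change ∑ j, l j * act NK (c • v) j = c * ∑ j, l j * act NK v j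
          rw [act_smul, Finset.mul_sum]
          refine Finset.sum_congr rfl fun j _ => ?_
          simp only [Pi.smul_apply, smul_eq_mul]
          ring }
  have hker : LinearMap.ker f ≠ ⊥ := LinearMap.ker_ne_bot_of_finrank_lt (by simp)
  obtain ⟨v, hv, hv0⟩ := Submodule.exists_mem_ne_zero_of_ne_bot hker
  have hv' : f v = 0 := hv
  have hv1 : pf (qmat B) eK v = 0 := congrFun hv' 0
  have hv2 : ∑ j, l j * act NK v j = 0 := congrFun hv' 1
  have hrad := hl _ hv2
  apply hv0
  apply nd
  intro w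
  have h1 := hpol v w
  have h2 : pf AK (act NK v) (act NK w) = 0 := by
    have h3 : pf AK (act NK v) (act NK w) =
        2 * ∑ i, act NK w i * ∑ j, AK i j * act NK v j := by
      have h4 : ∑ i, ∑ j, AK i j * (act NK v i * act NK w j) =
          ∑ i, ∑ j, AK i j * (act NK w i * act NK v j) := by
        rw [Finset.sum_comm]
        refine Finset.sum_congr rfl fun i _ => Finset.sum_congr rfl fun j _ => ?_
        rw [hAKs]
        ring
      simp only [pf, Algebra.algebraMap_self, RingHom.id_apply, mul_add, Finset.sum_add_distrib]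
      rw [h4, ← two_mul]
      congr 1
      refine Finset.sum_congr rfl fun i _ => ?_
      rw [Finset.mul_sum]
      refine Finset.sum_congr rfl fun j _ => ?_
      ring
    rw [h3]
    simp [hrad]
  rw [h2, hv1, mul_zero, zero_mul, zero_sub, neg_eq_zero] at h1
  exact (mul_eq_zero.mp h1).resolve_left hr

end minors

end Vale.Agent.P287.H631
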