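import Vale.Agent.P287.Forms

/-!
Springer's theorem: a quadratic form which is anisotropic over a field of characteristic zero stays
anisotropic over every finite extension of odd degree.
-/

open Polynomial

namespace Vale.Agent.P287.H631

lemma exists_odd_factor {k : Type*} [Field k] :
    ∀ (n : ℕ) (h : k[X]), h.natDegree = n → Odd n → ∃ p, Irreducible p ∧ p ∣ h ∧ Odd p.natDegree := by
  intro n
  induction n using Nat.strong_induction_on with
  | _ n ih =>
    intro h hn hodd
    have h0 : h ≠ 0 := by
      rintro rfl
      rw [natDegree_zero] at hn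
      subst hn
      simp at hodd
    have hu : ¬ IsUnit h := by
      intro hu
      have := natDegree_eq_zero_of_isUnit hu
      rw [this] at hn
      subst hn
      simp at hodd
    obtain ⟨p, hp, r, rfl⟩ := WfDvdMonoid.exists_irreducible_factor hu h0
    by_cases hpo : Odd p.natDegree
    · exact ⟨p, hp, dvd_mul_right _ _, hpo⟩
    · have hr0 : r ≠ 0 := right_ne_zero_of_mul h0
      have hd := natDegree_mul hp.ne_zero hr0
      have hp1 : 0 < p.natDegree := hp.natDegree_pos
      rw [Nat.not_odd_iff_even] at hpo
      have hr : Odd r.natDegree := by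
        rw [hn] at hd
        rw [hd, Nat.odd_add] at hodd
        by_contra hc
        rw [Nat.not_odd_iff_even] at hc
        exact (Nat.not_odd_iff_even.mpr hpo) (hodd.mpr hc)
      obtain ⟨p', hp', hd', ho'⟩ := ih r.natDegree (by omega) r rfl hr
      exact ⟨p', hp', hd'.mul_left _, ho'⟩

theorem springer_poly {k : Type*} [Field k] {ι : Type*} [Fintype ι] (c : ι → k)
    (han : ∀ w : ι → k, ∑ i, c i * w i ^ 2 = 0 → w = 0) :
    ∀ n : ℕ, Odd n → ∀ F : k[X], Irreducible F → F.natDegree = n →
      ∀ d : ℕ, d < n → ∀ g : ι → k[X], (∀ i, (g i).natDegree ≤ d) →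
      F ∣ ∑ i, C (c i) * g i ^ 2 → g = 0 := by
  intro n
  induction n using Nat.strong_induction_on with
  | _ n IH =>
  intro hodd F hF hdeg
  have key : ∀ d : ℕ, d < n → (∀ g : ι → k[X], (∀ i, (g i).natDegree + 1 ≤ d) →
      F ∣ ∑ i, C (c i) * g i ^ 2 → g = 0) → ∀ g : ι → k[X], (∀ i, (g i).natDegree ≤ d) →
      F ∣ ∑ i, C (c i) * g i ^ 2 → (∀ i, (g i).coeff d = 0) ∨ g = 0 := by
    intro d hd2 hrec g hg hdvd
    by_contra hcon
    push Not at hcon
    obtain ⟨⟨i₀, hi₀⟩, hg0⟩ := hcon
    set P : k[X] := ∑ i, C (c i) * g i ^ 2 with hP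
    have hPc : P.coeff (2 * d) = ∑ i, c i * ((g i).coeff d) ^ 2 := by
      rw [hP, finsetSum_coeff]
      refine Finset.sum_congr rfl fun i _ => ?_
      rw [coeff_C_mul, coeff_pow_of_natDegree_le (hg i)]
    have hPc0 : P.coeff (2 * d) ≠ 0 := by
      rw [hPc]
      intro h
      exact hi₀ (congrFun (han _ h) i₀)
    have hPdeg : P.natDegree = 2 * d := by
      apply le_antisymm
      · apply natDegree_sum_le_of_forall_le
        intro i _
        refine (natDegree_C_mul_le _ _).trans ?_
        exact (natDegree_pow_le).trans (Nat.mul_le_mul_left 2 (hg i))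
      · exact le_natDegree_of_ne_zero hPc0
    have hP0 : P ≠ 0 := fun h => hPc0 (by rw [h, coeff_zero])
    obtain ⟨h, hh⟩ := hdvd
    have hh0 : h ≠ 0 := fun h0 => hP0 (by rw [hh, h0, mul_zero])
    have hdeg2 : P.natDegree = n + h.natDegree := by
      rw [hh, natDegree_mul hF.ne_zero hh0, hdeg]
    have hhodd : Odd h.natDegree := by
      rw [Nat.odd_iff] at hodd ⊢
      omega
    obtain ⟨p, hp, hph, hpo⟩ := exists_odd_factor _ h rfl hhodd
    have hpn : p.natDegree ≤ h.natDegree := natDegree_le_of_dvd hph hh0
    have hpn' : p.natDegree < n := by omega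
    have hp1 : 0 < p.natDegree := hp.natDegree_pos
    -- the reductions modulo `p` vanish
    have hpP : p ∣ P := hph.trans (by rw [hh]; exact dvd_mul_left _ _)
    have hred : p ∣ ∑ i, C (c i) * (g i % p) ^ 2 := by
      have h1 : p ∣ P - ∑ i, C (c i) * (g i % p) ^ 2 := by
        rw [hP, ← Finset.sum_sub_distrib]
        refine Finset.dvd_sum fun i _ => ?_
        have h2 : g i - g i % p = p * (g i / p) := by
          have := EuclideanDomain.div_add_mod (g i) p
          linear_combination -this
        have h3 : C (c i) * g i ^ 2 - C (c i) * (g i % p) ^ 2 =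
            p * (C (c i) * (g i / p) * (g i + g i % p)) := by
          linear_combination (C (c i) * (g i + g i % p)) * h2
        rw [h3]
        exact dvd_mul_right _ _
      have h4 := dvd_sub hpP h1
      simpa using h4
    have hz := IH p.natDegree hpn' hpo p hp rfl (p.natDegree - 1) (by omega)
      (fun i => g i % p) (fun i => by
        have h1 : (g i % p).degree < p.degree := EuclideanDomain.mod_lt (g i) hp.ne_zero
        by_cases h2 : g i % p = 0
        · rw [h2, natDegree_zero]; omega
        · have h3 := natDegree_lt_natDegree h2 h1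
          omega) hred
    have hroot : ∀ i, ∃ q : k[X], g i = p * q := fun i =>
      ⟨g i / p, by
        have h1 := EuclideanDomain.div_add_mod (g i) p
        have h2 := congrFun hz i
        simp only [Pi.zero_apply] at h2
        rw [h2, add_zero] at h1
        exact h1.symm⟩
    choose q hq using hroot
    have hqdeg : ∀ i, (q i).natDegree + 1 ≤ d := by
      intro i
      have hd0 : 0 < d := by
        rcases Nat.eq_zero_or_pos d with h | h
        · rw [h] at hPdeg
          omega
        · exact h
      by_cases hqi : q i = 0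
      · rw [hqi, natDegree_zero]
        omega
      · have h1 : (g i).natDegree = p.natDegree + (q i).natDegree := by
          rw [hq i, natDegree_mul hp.ne_zero hqi]
        have h2 := hg i
        omega
    have hPq : P = p ^ 2 * ∑ i, C (c i) * q i ^ 2 := by
      rw [hP, Finset.mul_sum]
      refine Finset.sum_congr rfl fun i _ => ?_
      rw [hq i]
      ring
    have hcop : IsCoprime F p := by
      rcases (EuclideanDomain.dvd_or_coprime F p hF) with hd | hc
      · exfalso
        have h1 := natDegree_le_of_dvd hd hp.ne_zero
        omega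
      · exact hc
    have hdvd' : F ∣ ∑ i, C (c i) * q i ^ 2 := by
      have h1 : F ∣ p ^ 2 * ∑ i, C (c i) * q i ^ 2 := by
        rw [← hPq, hh]
        exact dvd_mul_right _ _
      exact (hcop.pow_right).dvd_of_dvd_mul_left h1
    have hq0 := hrec q hqdeg hdvd'
    apply hg0
    funext i
    rw [hq i, hq0]
    simp
  intro d
  induction d with
  | zero =>
    intro _ g hg hdvd
    rcases key 0 (by
      rw [Nat.odd_iff] at hodd
      omega) (fun g hg _ => by
      funext i
      exact absurd (hg i) (by omega)) g hg hdvd with h | h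
    · funext i
      rw [eq_C_of_natDegree_le_zero (hg i), h i]
      simp
    · exact h
  | succ d ih =>
    intro hd g hg hdvd
    rcases key (d + 1) hd (fun g hg hdvd => ih (by omega) g (fun i => by
      have := hg i
      omega) hdvd) g hg hdvd with h | h
    · refine ih (by omega) g (fun i => ?_) hdvd
      by_contra hcon
      have h1 : (g i).natDegree = d + 1 := by
        have := hg i
        omega
      have h2 : (g i).leadingCoeff = 0 := by
        rw [leadingCoeff, h1, h i]
      rw [leadingCoeff_eq_zero] at h2
      rw [h2, natDegree_zero] at h1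
      omega
    · exact h

/-- Springer's theorem for a diagonal form and an extension of odd degree. -/
theorem springer_diag {k E : Type*} [Field k] [Field E] [Algebra k E] [CharZero k]
    (hodd : Odd (Module.finrank k E)) {ι : Type*} [Fintype ι] (c : ι → k)
    (v : ι → E) (hv : v ≠ 0) (h : ∑ i, algebraMap k E (c i) * v i ^ 2 = 0) :
    ∃ w : ι → k, w ≠ 0 ∧ ∑ i, c i * w i ^ 2 = 0 := by
  by_contra hcon
  push Not at hcon
  have hpos : 0 < Module.finrank k E := hodd.pos
  have : FiniteDimensional k E := Module.finite_of_finrank_pos hpos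
  let pb := Field.powerBasisOfFiniteOfSeparable k E
  have hdim : pb.dim = Module.finrank k E := by rw [← pb.finrank]
  have hg : ∀ i, ∃ g : k[X], g.natDegree < pb.dim ∧ v i = aeval pb.gen g := fun i =>
    pb.exists_eq_aeval (v i)
  choose g hg1 hg2 using hg
  have hirr : Irreducible (minpoly k pb.gen) := minpoly.irreducible pb.isIntegral_gen
  have hdeg : (minpoly k pb.gen).natDegree = Module.finrank k E := by
    rw [pb.natDegree_minpoly, hdim]
  have h0 := springer_poly c (fun w hw => by
    by_contra hw0
    exact hcon w hw0 hw) _ hodd _ hirr hdeg (Module.finrank k E - 1) (by omega) g (fun i => by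
      have := hg1 i
      omega) (minpoly.dvd k pb.gen (by
      rw [map_sum, ← h]
      refine Finset.sum_congr rfl fun i _ => ?_
      rw [map_mul, map_pow, aeval_C, ← hg2 i]))
  apply hv
  funext i
  rw [hg2 i, h0]
  simp

end Vale.Agent.P287.H631
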